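import Vale.Agent.P284.H248.Main

/-!
# P284: if `ν = 0` (so `X` is a quotient of `ℂⁿ` by a crystallographic group) then `X` is special
-/

open scoped Manifold ContDiff Topology
open Filter Set
open Vale.Agent.P272.K Vale.Agent.P272.KOD Vale.Agent.P285.H281 Vale.Agent.P285.H766
open Vale.Agent.P272.K.QN (jm)

noncomputable section

namespace Vale.Agent.P284.H248

section ident
variable {n m : ℕ} {X : Type} [TopologicalSpace X] [ChartedSpace (Cm n) X]
  {B : LineBundle n X}

/-- vanishing does not depend on the frame -/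
theorem Sec.zero_iff (s : Sec B m) {i j : B.ι} {x : X} (hi : x ∈ B.U i) (hj : x ∈ B.U j) :
    s.f i x = 0 ↔ s.f j x = 0 := by
  rw [s.change i j x hi hj]
  have := B.ne_zero i j x hi hj
  constructor
  · intro h
    rcases mul_eq_zero.1 h with h | h
    · exact absurd h (pow_ne_zero _ this)
    · exact h
  · intro h
    rw [h, mul_zero]

/-- Identity theorem for sections of line bundles. -/
theorem Sec.ident [IsManifold 𝓘(ℂ, Cm n) ω X] [ConnectedSpace X] (s : Sec B m) {i₁ : B.ι} {x₁ : X}
    (h₁ : x₁ ∈ B.U i₁) (hz : ∀ᶠ x in 𝓝 x₁, s.f i₁ x = 0) {i : B.ι} {x : X} (h : x ∈ B.U i) :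
    s.f i x = 0 := by
  set Z : Set X := {x | ∀ᶠ y in 𝓝 x, ∀ j, y ∈ B.U j → s.f j y = 0} with hZ
  have hval : ∀ {j : B.ι} {x : X}, x ∈ B.U j → ((∀ᶠ y in 𝓝 x, s.f j y = 0) ↔ x ∈ Z) := by
    intro j x hj
    constructor
    · intro h1
      filter_upwards [h1, (B.isOpen j).mem_nhds hj] with y hy hyj k hyk
      exact (s.zero_iff hyj hyk).1 hy
    · intro h1
      filter_upwards [h1, (B.isOpen j).mem_nhds hj] with y hy hyj using hy j hyj
  have hopen : IsOpen Z := by
    rw [isOpen_iff_eventually]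
    intro y hy
    exact hy.eventually_nhds
  have hclosed : IsClosed Z := by
    rw [isClosed_iff_frequently]
    intro x hx
    obtain ⟨j, hj⟩ := B.cover x
    rw [← hval hj]
    have hA : At (chartAt (Cm n) x) x := ⟨chart_mem_atlas _ _, mem_chart_source _ _⟩
    set e := chartAt (Cm n) x with he
    have hch : ∀ᶠ u in 𝓝 (e x), e.symm u ∈ B.U j ∧ u ∈ e.target := by
      have h1 : ContinuousAt e.symm (e x) := e.continuousAt_symm hA.mem_target
      exact (h1.eventually (by rw [hA.left_inv]; exact (B.isOpen j).mem_nhds hj)).and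
        hA.nhds_target
    have han : ∀ᶠ u in 𝓝 (e x), AnalyticAt ℂ (fun u => s.f j (e.symm u)) u ∧
        e.symm u ∈ B.U j ∧ u ∈ e.target :=
      ((s.holo j e x hA hj).analyticAt.eventually_analyticAt).and hch
    obtain ⟨r, hr, hb⟩ := Metric.eventually_nhds_iff_ball.1 han
    have h1 : ∀ᶠ y in 𝓝 x, e y ∈ Metric.ball (e x) r ∧ y ∈ e.source :=
      ((e.continuousAt hA.2).eventually (Metric.ball_mem_nhds _ hr)).and
        (e.open_source.mem_nhds hA.2)
    obtain ⟨y, hy, hyb, hys⟩ := (hx.and_eventually h1).exists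
    have hyj : y ∈ B.U j := by
      have := (hb _ hyb).2.1
      rwa [e.left_inv hys] at this
    have h2 : ∀ᶠ u in 𝓝 (e y), s.f j (e.symm u) = 0 := by
      have h3 : ContinuousAt e.symm (e y) := e.continuousAt_symm (e.map_source hys)
      have h4 := (hval hyj).2 hy
      exact h3.eventually (by rw [e.left_inv hys]; exact h4)
    have h3 : AnalyticOnNhd ℂ (fun u => s.f j (e.symm u)) (Metric.ball (e x) r) :=
      fun u hu => (hb u hu).1
    have h4 := h3.eqOn_zero_of_preconnected_of_eventuallyEq_zero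
      (convex_ball _ _).isPreconnected hyb h2
    filter_upwards [h1] with y' hy'
    have h5 := h4 hy'.1
    simp only [e.left_inv hy'.2] at h5
    exact h5
  have huniv : Z = univ := IsClopen.eq_univ ⟨hclosed, hopen⟩ ⟨x₁, (hval h₁).1 hz⟩
  have hx : x ∈ Z := by rw [huniv]; trivial
  exact hx.self_of_nhds i h

end ident

section
variable {V : Type} [NormedAddCommGroup V] [NormedSpace ℂ V]
  {n : ℕ} {X : Type} [TopologicalSpace X] [ChartedSpace (Cm n) X] [IsManifold 𝓘(ℂ, Cm n) ω X]
  {B : LineBundle n X} {m p : ℕ}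

/-- the value of `s • φ^m` on the constant vectors `v` in given frame and chart -/
def loc (s : Sec B m) (φ : Mor B p) (q : V → X) (v : Fin p → V) (i : B.ι) (e : Chart n X) (z : V) :
    ℂ := s.f i (q z) * (φ.form i e (e (q z)) (fun a => fderiv ℂ (fun z' => e (q z')) z (v a))) ^ m

/-- the function `s • φ^m` on `V` -/
def glob (s : Sec B m) (φ : Mor B p) (q : V → X) (v : Fin p → V) (z : V) : ℂ :=
  loc s φ q v (B.cover (q z)).choose (chartAt (Cm n) (q z)) z

theorem loc_eq (s : Sec B m) (φ : Mor B p) {q : V → X} (v : Fin p → V) {i j : B.ι}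
    {e e' : Chart n X} {z : V} (hi : q z ∈ B.U i) (hj : q z ∈ B.U j) (he : At e (q z))
    (he' : At e' (q z)) (hq : Continuous q)
    (hd : ContDiffAt ℂ ω (fun z' => e (q z')) z) : loc s φ q v i e z = loc s φ q v j e' z := by
  unfold loc
  have h1 : (fun z' => e' (q z')) =ᶠ[𝓝 z] (fun u => e' (e.symm u)) ∘ fun z' => e (q z') := by
    filter_upwards [hq.continuousAt.eventually (e.open_source.mem_nhds he.2)] with z' hz'
    simp only [Function.comp]
    rw [e.left_inv hz']
  have h2 := fderiv_comp z (f := fun z' => e (q z')) (g := fun u => e' (e.symm u))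
    (transition_differentiableAt he he') (hd.differentiableAt (by simp))
  have h3 := φ.change j e e' (q z) he he' hj
  have h4 := φ.glue i j e (q z) he hi hj
  rw [h3] at h4
  rw [h1.fderiv_eq, h2]
  have h5 : (φ.form j e' (e' (q z))) (fun a => ((fderiv ℂ (fun u => e' (e.symm u)) (e (q z))).comp
      (fderiv ℂ (fun z' => e (q z')) z)) (v a)) = B.g i j (q z) *
      (φ.form i e (e (q z))) (fun a => fderiv ℂ (fun z' => e (q z')) z (v a)) := by
    have h6 := congrArg (fun f : (Cm n) [⋀^Fin p]→ₗ[ℂ] ℂ =>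
      f (fun a => fderiv ℂ (fun z' => e (q z')) z (v a))) h4
    simp only [AlternatingMap.compLinearMap_apply, AlternatingMap.smul_apply, smul_eq_mul] at h6
    exact h6
  rw [h5, s.change i j (q z) hi hj]
  ring

/-- a form evaluated on holomorphic vectors is holomorphic -/
theorem form_holo (φ : Mor B p) {i : B.ι} {e : Chart n X} {x : X} (hi : x ∈ B.U i) (he : At e x)
    {z : V} {u : V → Cm n} (hu : ContDiffAt ℂ ω u z) (hx : u z = e x) {w : Fin p → V → Cm n}
    (hw : ∀ a, ContDiffAt ℂ ω (w a) z) :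
    ContDiffAt ℂ ω (fun z => φ.form i e (u z) (fun a => w a z)) z := by
  have h1 : (fun z => φ.form i e (u z) (fun a => w a z)) = fun z => ∑ r : Fin p → Fin n,
      (∏ a, w a z (r a)) * φ.form i e (u z) (fun a => Pi.single (r a) 1) := by
    funext z
    have h2 : (fun a => w a z) = fun a => ∑ b : Fin n, w a z b • (Pi.single b 1 : Cm n) := by
      funext a
      funext c
      rw [Finset.sum_apply, Finset.sum_eq_single c]
      · simp
      · intro b _ hb
        simp [hb.symm]
      · simp
    rw [h2]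
    have h3 := MultilinearMap.map_sum (φ.form i e (u z)).toMultilinearMap
      (fun a (b : Fin n) => w a z b • (Pi.single b 1 : Cm n))
    have h4 : ∀ r : Fin p → Fin n, (φ.form i e (u z)).toMultilinearMap
        (fun a => w a z (r a) • (Pi.single (r a) 1 : Cm n)) =
        (∏ a, w a z (r a)) * φ.form i e (u z) (fun a => Pi.single (r a) 1) := fun r =>
      MultilinearMap.map_smul_univ _ _ _
    simp only [h4] at h3
    exact h3
  rw [h1]
  refine ContDiffAt.sum fun r _ => ContDiffAt.mul ?_ ?_
  · exact contDiffAt_prod fun a _ => (contDiffAt_pi.1 (hw a)) (r a)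
  · have h5 : ContDiffAt ℂ ω (fun y => φ.form i e y (fun a => Pi.single (r a) 1)) (u z) := by
      rw [hx]; exact φ.holo i e x he hi _
    exact ContDiffAt.comp z (g := fun y => φ.form i e y (fun a => Pi.single (r a) 1)) h5 hu

variable {q : V → X} (hq : Continuous q)
  (hh : ∀ (z : V) (e : Chart n X), At e (q z) → ContDiffAt ℂ ω (fun z' => e (q z')) z)

include hq hh in
theorem glob_eq (s : Sec B m) (φ : Mor B p) (v : Fin p → V) {i : B.ι} {e : Chart n X} {z : V}
    (hi : q z ∈ B.U i) (he : At e (q z)) : glob s φ q v z = loc s φ q v i e z :=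
  loc_eq s φ v (B.cover (q z)).choose_spec hi ⟨chart_mem_atlas _ _, mem_chart_source _ _⟩ he hq
    (hh z _ ⟨chart_mem_atlas _ _, mem_chart_source _ _⟩)

include hq hh in
theorem glob_diff (s : Sec B m) (φ : Mor B p) (v : Fin p → V) :
    Differentiable ℂ (glob s φ q v) := by
  intro z
  obtain ⟨i, hi⟩ := B.cover (q z)
  have he : At (chartAt (Cm n) (q z)) (q z) := ⟨chart_mem_atlas _ _, mem_chart_source _ _⟩
  set e := chartAt (Cm n) (q z)
  have hd := hh z e he
  have h1 : ContDiffAt ℂ ω (fun z' => s.f i (q z')) z := by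
    have h2 : ContDiffAt ℂ ω (fun u => s.f i (e.symm u)) ((fun z' => e (q z')) z) :=
      s.holo i e (q z) he hi
    have h3 : ContDiffAt ℂ ω (fun z' => s.f i (e.symm (e (q z')))) z :=
      ContDiffAt.comp z (g := fun u => s.f i (e.symm u)) h2 hd
    refine h3.congr_of_eventuallyEq ?_
    filter_upwards [hq.continuousAt.eventually (e.open_source.mem_nhds he.2)] with z' hz'
    rw [e.left_inv hz']
  have h4 : ContDiffAt ℂ ω (fun z' => φ.form i e (e (q z'))
      (fun a => fderiv ℂ (fun z' => e (q z')) z' (v a))) z := by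
    have h5 : ContDiffAt ℂ ω (fderiv ℂ fun z' => e (q z')) z :=
      hd.fderiv_right (m := ω) (by exact le_top)
    exact form_holo φ hi he hd rfl (w := fun a z' => fderiv ℂ (fun z' => e (q z')) z' (v a))
      fun a => h5.clm_apply contDiffAt_const
  have h6 : ContDiffAt ℂ ω (loc s φ q v i e) z := h1.mul (h4.pow m)
  refine (h6.differentiableAt (by simp)).congr_of_eventuallyEq ?_
  filter_upwards [hq.continuousAt.eventually (e.open_source.mem_nhds he.2),
    hq.continuousAt.eventually ((B.isOpen i).mem_nhds hi)] with z' hz' hz''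
  exact glob_eq hq hh s φ v hz'' ⟨he.1, hz'⟩

include hq hh in
theorem glob_per (s : Sec B m) (φ : Mor B p) (v : Fin p → V) {l : V} (hl : ∀ z, q (z + l) = q z)
    (z : V) : glob s φ q v (z + l) = glob s φ q v z := by
  obtain ⟨i, hi⟩ := B.cover (q z)
  have he : At (chartAt (Cm n) (q z)) (q z) := ⟨chart_mem_atlas _ _, mem_chart_source _ _⟩
  rw [glob_eq hq hh s φ v hi he, glob_eq hq hh s φ v (i := i) (e := chartAt (Cm n) (q z))
    (z := z + l) (by rw [hl]; exact hi) (by rw [hl]; exact he)]
  unfold loc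
  rw [hl]
  have h1 : (fun z' => chartAt (Cm n) (q z) (q z')) = fun z' =>
      chartAt (Cm n) (q z) (q (z' + l)) := by
    funext z'
    rw [hl]
  have h2 : fderiv ℂ (fun z' => chartAt (Cm n) (q z) (q z')) z =
      fderiv ℂ (fun z' => chartAt (Cm n) (q z) (q z')) (z + l) := by
    conv_lhs => rw [h1]
    exact fderiv_comp_add_right (𝕜 := ℂ) (f := fun z' => chartAt (Cm n) (q z) (q z')) l
  rw [h2]

end

section
variable {V : Type} [NormedAddCommGroup V] [InnerProductSpace ℂ V] {ν : ℕ} {Y : Type}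
  [TopologicalSpace Y] [ChartedSpace (Cm ν) Y]
  {Γ : Type} [Group Γ] {D : Dat V ν Y Γ}
  {n : ℕ} {X : Type} [TopologicalSpace X] [ChartedSpace (Cm n) X]

/-- a connected manifold of dimension zero is a point -/
theorem subsingleton_of_dim_zero (hν : ν = 0) [ConnectedSpace Y] : Subsingleton Y := by
  subst hν
  have hdisc : DiscreteTopology Y := by
    rw [discreteTopology_iff_isOpen_singleton]
    intro y
    have h1 : (chartAt (Cm 0) y).source = {y} := by
      ext y'
      constructor
      · intro hy'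
        exact (chartAt (Cm 0) y).injOn hy' (mem_chart_source _ _) (Subsingleton.elim _ _)
      · rintro rfl
        exact mem_chart_source _ _
    rw [← h1]
    exact (chartAt (Cm 0) y).open_source
  refine ⟨fun a b => ?_⟩
  have h1 : IsClopen ({a} : Set Y) := ⟨isClosed_discrete _, isOpen_discrete _⟩
  have h2 := h1.eq_univ ⟨a, rfl⟩
  have h3 : b ∈ ({a} : Set Y) := by rw [h2]; trivial
  exact h3.symm

/-- If `ν = 0` then `X` is special. -/
theorem Cov.special_of_dim_zero (C : Cov D n X) (hν : ν = 0) [FiniteDimensional ℂ V]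
    [ConnectedSpace Y] [ConnectedSpace X] [IsManifold 𝓘(ℂ, Cm n) ω X]
    (hprop : ∀ K : Set Y, IsCompact K →
      {f : Y → Y | (∃ γ, f = D.h γ) ∧ (f '' K ∩ K).Nonempty}.Finite) : Special n X := by
  have hsub : Subsingleton Y := subsingleton_of_dim_zero hν
  obtain ⟨L, Γ₂, Γ₃, hfi, hL2, h32, -, hA2, hL, -, hdec, hfree, hpd, hcc, -, R, hR⟩ :=
    exists_split D hprop
  obtain ⟨y₀⟩ := (inferInstance : Nonempty Y)
  set q : V → X := fun z => C.p (z, y₀) with hqdef
  have hq : Continuous q := C.lh.continuous.comp (Continuous.prodMk_left y₀)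
  have hh : ∀ (z : V) (e : Chart n X), At e (q z) → ContDiffAt ℂ ω (fun z' => e (q z')) z :=
    fun z e he => C.holV y₀ z e he
  have hqs : Function.Surjective q := by
    intro x
    obtain ⟨⟨z, y⟩, hz⟩ := C.surj x
    exact ⟨z, by rw [hqdef]; simp only [Subsingleton.elim y₀ y, hz]⟩
  have hper : ∀ l ∈ L, ∀ z, q (z + D.v l) = q z := by
    intro l hl z
    have h1 : act D l (z, y₀) = (z + D.v l, y₀) := by
      simp only [act, ((hL l).1 hl).1, ((hL l).1 hl).2]
      rfl
    show C.p (z + D.v l, y₀) = C.p (z, y₀)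
    rw [← h1, C.p_act]
  intro p hp hpn B hI φ hφ
  obtain ⟨⟨m, hm, s, i, e, x, he, hi, h0, hli⟩, -⟩ := hI
  obtain ⟨i', e', x', he', hi', hne⟩ := hφ
  -- Liouville
  have hconst : ∀ (t : Sec B m) (v : Fin p → V) (z w : V), glob t φ q v z = glob t φ q v w := by
    intro t v z w
    refine Differentiable.apply_eq_apply_of_bounded (glob_diff hq hh t φ v) ?_ z w
    have : ProperSpace V := FiniteDimensional.proper ℂ V
    have hsub : Set.range (glob t φ q v) ⊆ glob t φ q v '' Metric.closedBall 0 R := by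
      rintro _ ⟨z, rfl⟩
      obtain ⟨l, hl, hlR⟩ := hR z
      refine ⟨z - D.v l, ?_, ?_⟩
      · rw [mem_closedBall_zero_iff, ← norm_neg, neg_sub]
        exact hlR
      · have := glob_per hq hh t φ v (hper l hl) (z - D.v l)
        rw [sub_add_cancel] at this
        exact this.symm
    exact (((isCompact_closedBall (0 : V) R).image
      (glob_diff hq hh t φ v).continuous).isBounded).subset hsub
  obtain ⟨z', hz'⟩ := hqs x'
  obtain ⟨z₀, hz₀⟩ := hqs x
  -- vectors on which `φ` does not vanish at `x'`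
  have hsurj : ∃ A : Cm n →L[ℂ] V, (fderiv ℂ (fun z => e' (q z)) z').comp A =
      ContinuousLinearMap.id ℂ (Cm n) := by
    set a : V × Y := (z', y₀) with ha
    have hpa : C.p a = x' := hz'
    have hAe : At e' (C.p a) := by rw [hpa]; exact he'
    have h1 := C.holZ (C.loc a) a (C.loc_eq a) (C.mem_loc a) e' hAe
    refine ⟨fderiv ℂ (fun u => (C.σ a (e'.symm u)).1) (e' (C.p a)), ?_⟩
    have h2 : (fun u => (C.σ a (e'.symm u)).1) (e' (C.p a)) = z' := by
      simp only [hAe.left_inv, C.σ_p_self]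
      rfl
    have h3 : DifferentiableAt ℂ (fun z => e' (q z))
        ((fun u => (C.σ a (e'.symm u)).1) (e' (C.p a))) := by
      rw [h2]
      exact (hh z' e' hAe).differentiableAt (by simp)
    have h4 := fderiv_comp (e' (C.p a)) (f := fun u => (C.σ a (e'.symm u)).1)
      (g := fun z => e' (q z)) h3 (h1.differentiableAt (by simp))
    have h4' : (C.σ a (e'.symm (e' (C.p a)))).1 = z' := h2
    simp only [h4'] at h4
    rw [← h4]
    have h5 : ((fun z => e' (q z)) ∘ fun u => (C.σ a (e'.symm u)).1) =ᶠ[𝓝 (e' (C.p a))] id := by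
      filter_upwards [Cov.dom_nhds (C.p_mem_dom a) hAe, hAe.nhds_target] with u hu hut
      have h6 : C.p (C.σ a (e'.symm u)) = e'.symm u := C.p_σ' hu
      have h7 : ((C.σ a (e'.symm u)).1, y₀) = C.σ a (e'.symm u) :=
        Prod.ext rfl (Subsingleton.elim _ _)
      simp only [Function.comp, hqdef, h7, h6, id]
      exact e'.right_inv hut
    rw [h5.fderiv_eq, fderiv_id]
  obtain ⟨A, hA⟩ := hsurj
  obtain ⟨v, hv⟩ : ∃ v : Fin p → Cm n, φ.form i' e' (e' x') v ≠ 0 := by
    by_contra hcon
    push Not at hcon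
    exact hne (AlternatingMap.ext hcon)
  set w : Fin p → V := fun a => A (v a) with hw
  have hAv : ∀ a, fderiv ℂ (fun z => e' (q z)) z' (w a) = v a := fun a =>
    congrArg (fun T : Cm n →L[ℂ] Cm n => T (v a)) hA
  -- the section `s 0` does not vanish identically near `x'`
  have hq' : IsOpenMap q := by
    have h1 : IsOpenMap fun z : V => (z, y₀) := by
      intro U hU
      have h2 : (fun z : V => (z, y₀)) '' U = U ×ˢ univ := by
        ext a
        constructor
        · rintro ⟨z, hz, rfl⟩
          exact ⟨hz, trivial⟩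
        · rintro ⟨h, -⟩
          exact ⟨a.1, h, Prod.ext rfl (Subsingleton.elim _ _)⟩
      rw [h2]
      exact hU.prod isOpen_univ
    exact C.lh.isOpenMap.comp h1
  have hG0 : glob (s 0) φ q w z' ≠ 0 := by
    intro hzero
    have hall : ∀ z, glob (s 0) φ q w z = 0 := fun z => (hconst (s 0) w z z').trans hzero
    have hiz : q z' ∈ B.U i' := by rw [hz']; exact hi'
    have hez : At e' (q z') := by rw [hz']; exact he'
    have hcont : ContinuousAt (fun z => φ.form i' e' (e' (q z))
        (fun a => fderiv ℂ (fun z => e' (q z)) z (w a))) z' := by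
      have h5 : ContDiffAt ℂ ω (fderiv ℂ fun z => e' (q z)) z' :=
        (hh z' e' hez).fderiv_right (m := ω) (by exact le_top)
      exact (form_holo φ hiz hez (hh z' e' hez) rfl
        (w := fun a z => fderiv ℂ (fun z => e' (q z)) z (w a))
        fun a => h5.clm_apply contDiffAt_const).continuousAt
    have hne' : φ.form i' e' (e' (q z')) (fun a => fderiv ℂ (fun z => e' (q z)) z' (w a)) ≠ 0 := by
      simp only [hAv]
      rw [hz']
      exact hv
    have h6 : ∀ᶠ z in 𝓝 z', (s 0).f i' (q z) = 0 := by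
      filter_upwards [hcont.eventually_ne hne',
        hq.continuousAt.eventually (e'.open_source.mem_nhds hez.2),
        hq.continuousAt.eventually ((B.isOpen i').mem_nhds hiz)] with z h7 h8 h9
      have h10 := hall z
      rw [glob_eq hq hh (s 0) φ w h9 ⟨he'.1, h8⟩] at h10
      rcases mul_eq_zero.1 h10 with h11 | h11
      · exact h11
      · exact absurd (pow_eq_zero_iff (by omega) |>.1 h11) h7
    have h7 : ∀ᶠ y in 𝓝 x', (s 0).f i' y = 0 := by
      obtain ⟨O, hO, hOo, hzO⟩ := eventually_nhds_iff.1 h6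
      refine eventually_nhds_iff.2 ⟨q '' O, ?_, hq' O hOo, ⟨z', hzO, hz'⟩⟩
      rintro _ ⟨z, hz, rfl⟩
      exact hO z hz
    exact h0 ((s 0).ident hi' h7 hi)
  have hratio : ∀ y ∈ B.U i, ∀ j, (s j).f i y / (s 0).f i y =
      glob (s j) φ q w z' / glob (s 0) φ q w z' := by
    intro y hy j
    obtain ⟨z, rfl⟩ := hqs y
    have hA' : At (chartAt (Cm n) (q z)) (q z) := ⟨chart_mem_atlas _ _, mem_chart_source _ _⟩
    rw [hconst (s j) w z' z, hconst (s 0) w z' z, glob_eq hq hh (s j) φ w hy hA',
      glob_eq hq hh (s 0) φ w hy hA']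
    have h1 : glob (s 0) φ q w z ≠ 0 := by rw [hconst (s 0) w z z']; exact hG0
    rw [glob_eq hq hh (s 0) φ w hy hA'] at h1
    simp only [Vale.Agent.P284.H248.loc] at h1 ⊢
    exact (mul_div_mul_right _ _ (right_ne_zero_of_mul h1)).symm
  have hp0 : 0 < p := hp
  have h2 := hli.ne_zero ⟨0, hp0⟩
  refine h2 ?_
  have h3 : (fun u => (s (Fin.succ ⟨0, hp0⟩)).f i (e.symm u) / (s 0).f i (e.symm u)) =ᶠ[𝓝 (e x)]
      fun _ => glob (s (Fin.succ ⟨0, hp0⟩)) φ q w z' / glob (s 0) φ q w z' := by
    have h4 : ContinuousAt e.symm (e x) := e.continuousAt_symm he.mem_target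
    have h5 : ∀ᶠ u in 𝓝 (e x), e.symm u ∈ B.U i :=
      h4.eventually (by rw [he.left_inv]; exact (B.isOpen i).mem_nhds hi)
    filter_upwards [h5] with u hu using hratio _ hu _
  rw [h3.fderiv_eq]
  exact fderiv_const_apply _

end

end Vale.Agent.P284.H248
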