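import Vale.Agent.P284.H248.OfGeo
import Vale.Agent.P284.H248.FlatSp
import Vale.Agent.P285.H591.C7.GeoOf
import Vale.Agent.P285.H591.C7.ParE
import Vale.Agent.P285.H281.End

/-!
# P284: assembly with the structure theorem of P285
-/

open scoped Manifold ContDiff ComplexOrder Topology Matrix
open Complex Vale.Agent.P272.K Vale.Agent.P278.H837 Vale.Agent.P299.D Vale.Agent.P299.H956
open Vale.Agent.P299.D1 (Pr UC exists_uc exists_prodQ)
open Vale.Agent.P285.H281 Vale.Agent.P285.H766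
open Vale.Agent.P285.H591 (FlatSplit)
open Vale.Agent.P285.H591.C7 (bas bas_symm BF)

set_option linter.all false

noncomputable section

namespace Vale.Agent.P284.H248

section main
variable {n : ℕ} {X : Type} [TopologicalSpace X] [T2Space X] [CompactSpace X] [ConnectedSpace X]
  [ChartedSpace (Cm n) X] [IsManifold 𝓘(ℂ, Cm n) ω X] {w p : FormM n X}
  (K : Vale.Agent.P285.H591.C7.Cov n X w p)

/-- the flat factor -/
abbrev VK : Type := EuclideanSpace ℂ (Fin (K.P.d 0))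

/-- the homeomorphism of the universal covering with `ℂ^k × Y` -/
def homeoK : K.U.M ≃ₜ VK K × K.P.Y 1 where
  toFun m := (WithLp.toLp 2 (K.dev (K.P.Φ m 0)), K.P.Φ m 1)
  invFun a := K.pt a.1.ofLp a.2
  left_inv m := K.ext (by rw [K.pt_zero]) (by rw [K.pt_one])
  right_inv a := by
    refine Prod.ext ?_ ?_
    · show WithLp.toLp 2 (K.dev (K.P.Φ (K.pt a.1.ofLp a.2) 0)) = a.1
      rw [K.pt_zero]
    · show K.P.Φ (K.pt a.1.ofLp a.2) 1 = a.2
      rw [K.pt_one]
  continuous_toFun := by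
    refine Continuous.prodMk ?_ (K.P.Φ_hol 1).continuous
    refine (EuclideanSpace.equiv (Fin (K.P.d 0)) ℂ).symm.continuous.comp ?_
    exact K.dev.continuous.comp (K.P.Φ_hol 0).continuous
  continuous_invFun := by
    refine K.pt_cont.comp (Continuous.prodMk ?_ continuous_snd)
    exact (EuclideanSpace.equiv (Fin (K.P.d 0)) ℂ).continuous.comp continuous_fst

theorem pt_eq0 (z z' : Cm (K.P.d 0)) (y : K.P.Y 1) : K.pt z y =
    K.P.Φ.symm (Function.update (Fin.cons (K.dev.symm z') (Fin.cons y finZeroElim) :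
      (i : Fin 2) → K.P.Y i) 0 (K.dev.symm z)) := by
  rw [Fin.update_cons_zero]
  rfl

theorem pt_eq1 (z : Cm (K.P.d 0)) (y y' : K.P.Y 1) : K.pt z y =
    K.P.Φ.symm (Function.update (Fin.cons (K.dev.symm z) (Fin.cons y' finZeroElim) :
      (i : Fin 2) → K.P.Y i) 1 y) := by
  unfold Vale.Agent.P285.H591.C7.Cov.pt
  congr 1
  funext i
  fin_cases i
  · rfl
  · rfl

theorem sliceV (y : K.P.Y 1) :
    ContMDiff 𝓘(ℂ, VK K) 𝓘(ℂ, Cm n) ω fun z : VK K => (homeoK K).symm (z, y) := by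
  have h1 : (fun z : VK K => (homeoK K).symm (z, y)) = fun z : VK K =>
      K.P.Φ.symm (Function.update (Fin.cons (K.dev.symm 0) (Fin.cons y finZeroElim) :
        (i : Fin 2) → K.P.Y i) 0 (K.dev.symm z.ofLp)) := by
    funext z
    exact pt_eq0 K z.ofLp 0 y
  rw [h1]
  have h2 : ContMDiff 𝓘(ℂ, VK K) 𝓘(ℂ, Cm (K.P.d 0)) ω fun z : VK K => z.ofLp :=
    (EuclideanSpace.equiv (Fin (K.P.d 0)) ℂ).contDiff.contMDiff
  exact (K.P.slice_hol 0 _).comp (K.dev_symm_hol.comp h2)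

theorem sliceY (z : VK K) :
    ContMDiff 𝓘(ℂ, Cm (K.P.d 1)) 𝓘(ℂ, Cm n) ω fun y : K.P.Y 1 => (homeoK K).symm (z, y) := by
  have h1 : (fun y : K.P.Y 1 => (homeoK K).symm (z, y)) = fun y =>
      K.P.Φ.symm (Function.update (Fin.cons (K.dev.symm z.ofLp)
        (Fin.cons (Classical.choice inferInstance) finZeroElim) :
        (i : Fin 2) → K.P.Y i) 1 y) := by
    funext y
    exact pt_eq1 K z.ofLp y _
  rw [h1]
  exact K.P.slice_hol 1 _

/-- the geometric data, with `Z` and `q` -/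
theorem exists_geoK (D : Dat (VK K) (K.P.d 1) (K.P.Y 1) (Deck K.U.π))
    (hη : D.η = K.wY 1) (hh : ∀ γ y, D.h γ y = K.P.ρ 1 γ y)
    (hA : ∀ γ (z : Cm (K.P.d 0)), D.A γ (WithLp.toLp 2 z) + D.v γ = WithLp.toLp 2 (K.τ γ z)) :
    ∃ S : Geo (n := n) (bas (K.P.d 0)) D (M := K.U.M) (X := X),
      (∀ m, S.Z m = K.dev (K.P.Φ m 0)) ∧ (∀ m, S.q m = K.P.Φ m 1) ∧
      (∀ m, S.π m = K.U.π m) ∧
      ∀ (e : Chart n K.U.M) (m : K.U.M), At e m → pullM S.π w e (e m) =
        (jacF S.Z e (OpenPartialHomeomorph.refl (Cm (K.P.d 0))) m)ᵀ *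
          (jacF S.Z e (OpenPartialHomeomorph.refl (Cm (K.P.d 0))) m).map (starRingEnd ℂ) +
        pullM S.q D.η e (e m) := by
  refine ⟨{
    π := K.U.π
    surj := K.U.surj
    loc := K.U.loc
    act := fun γ m => (γ : K.U.M ≃ₜ K.U.M) m
    hol := fun γ => Vale.Agent.P299.H996.deck_hol K.U.loc γ
    fib := K.U.gal
    Z := fun m => K.dev (K.P.Φ m 0)
    Z_hol := K.dev_hol.comp (K.P.Φ_hol 0)
    q := fun m => K.P.Φ m 1
    q_hol := K.P.Φ_hol 1
    Z_act := fun γ m => by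
      rw [bas_symm, bas_symm, hA, K.dev_act]
    q_act := fun γ m => by
      rw [hh, K.P.equiv]
    jac := fun e c m h hc u h0 h1 => K.jac_ker h hc u h0 h1 }, fun m => rfl, fun m => rfl,
      fun m => rfl, fun e m h => ?_⟩
  rw [hη]
  exact K.metric h

/-- everything from the Kähler-Einstein equation on `Y` -/
theorem exists_covK (hw : IsKahler w)
    (hke : ∀ (e : Chart (K.P.d 1) (K.P.Y 1)) y, At e y →
      cHess (fun z => Real.log (K.wY 1 e z).det.re) (e y) = K.wY 1 e (e y)) :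
    ∃ (D : Dat (VK K) (K.P.d 1) (K.P.Y 1) (Deck K.U.π)) (C : Cov D n X),
      (∀ a, C.p a = K.U.π ((homeoK K).symm a)) ∧ ∀ S : Set (K.P.Y 1), IsCompact S →
        {f : K.P.Y 1 → K.P.Y 1 | (∃ γ, f = D.h γ) ∧ (f '' S ∩ S).Nonempty}.Finite := by
  obtain ⟨D, hη, hh, hA⟩ := K.exists_dat hke
  obtain ⟨S, hZ, hq, hπ, hS⟩ := exists_geoK K D hη hh hA
  have σ : Fin n ≃ Fin (K.P.d 0) ⊕ Fin (K.P.d 1) :=
    (finSumFinEquiv.trans (finCongr (by
      rw [← Fin.sum_univ_two (f := K.P.d)]; exact K.P.dsum))).symm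
  refine ⟨D, covOfGeo S (homeoK K) (fun m => ?_) (sliceV K) (sliceY K), fun a => hπ _,
    hprop_of_geo σ S hw hS⟩
  rw [bas_symm, hZ, hq]
  rfl

/-- the kernel of `dΦ 1` is the flat part -/
theorem pullE_eq_one (hd : K.P.d 1 = 0) (e : Chart n K.U.M) (m : K.U.M) (h : At e m) :
    pullE K.U.π (fun e z => 1 - BF w p e z) e (e m) = 0 := by
  have hc0 := at_chartAt (n := K.P.d 0) (K.P.Φ m 0)
  have h1 := K.ker 1 0 (by decide) e m _ h hc0
  have h1' : jacF (fun m => K.P.Φ m 0) e (chartAt (Cm (K.P.d 0)) (K.P.Φ m 0)) m *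
      pullE K.U.π (fun e z => 1 - BF w p e z) e (e m) = 0 := h1
  have h2 : ∀ u : Cm n,
      (pullE K.U.π (fun e z => 1 - BF w p e z) e (e m)).mulVec u = 0 := by
    intro u
    have hc1 := at_chartAt (n := K.P.d 1) (K.P.Φ m 1)
    refine K.P.jac_inj e m (fun i => chartAt (Cm (K.P.d i)) (K.P.Φ m i)) h
      (fun i => at_chartAt (n := K.P.d i) (K.P.Φ m i)) _ ?_
    · intro i
      fin_cases i
      · show (jacF (fun m => K.P.Φ m 0) e (chartAt (Cm (K.P.d 0)) (K.P.Φ m 0)) m).mulVec _ = 0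
        rw [Matrix.mulVec_mulVec, h1', Matrix.zero_mulVec]
      · funext j
        have : IsEmpty (Fin (K.P.d 1)) := by rw [hd]; infer_instance
        exact this.elim j
  ext i j
  have := congrFun (h2 (Pi.single j 1)) i
  rw [Matrix.mulVec_single_one] at this
  exact this

/-- `ν = 0` implies `p = w` -/
theorem eq_of_dim_zero (hw : IsKahler w) {k : ℕ} (hs : FlatSplit w p k) (hd : K.P.d 1 = 0) (e : Chart n X)
    (x : X) (h : At e x) : p e (e x) = w e (e x) := by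
  obtain ⟨m, rfl⟩ := K.U.surj x
  have hB := (Vale.Agent.P285.H591.C7.parEnd_of_split hw hs)
  have hQ : ParEnd w (fun e z => 1 - BF w p e z) := ParEnd.one.sub hB
  have hi : Immersive n n K.U.π := immersive_of_localDiffeo K.U.loc
  have h1 := pullE_rel hQ.hol (K.U.loc.contMDiff) hi (at_chartAt (n := n) m) h
  rw [pullE_eq_one K hd _ _ (at_chartAt (n := n) m), Matrix.mul_zero] at h1
  have hu := jac_isUnit hi (at_chartAt (n := n) m) h
  have h2 : (1 : Matrix (Fin n) (Fin n) ℂ) - BF w p e (e (K.U.π m)) = 0 := by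
    have h3 := congrArg (fun A => A * (jacF K.U.π (chartAt (Cm n) m) e m)⁻¹) h1
    simp only [Matrix.zero_mul, Matrix.mul_assoc, Matrix.mul_nonsing_inv _ hu, Matrix.mul_one] at h3
    exact h3.symm
  have h4 : BF w p e (e (K.U.π m)) = 1 := (sub_eq_zero.1 h2).symm
  have h5 : (w e (e (K.U.π m)))⁻¹ * p e (e (K.U.π m)) = 1 := by
    have h6 := congrArg (fun A : Matrix (Fin n) (Fin n) ℂ => A.map (starRingEnd ℂ)) h4
    have h7 : (BF w p e (e (K.U.π m))).map (starRingEnd ℂ) =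
        (w e (e (K.U.π m)))⁻¹ * p e (e (K.U.π m)) := Vale.Agent.P285.H591.C7.map_map_conj _
    simp only [h7] at h6
    rw [h6]
    ext i j
    by_cases hij : i = j
    · subst hij; simp
    · simp [Matrix.one_apply_ne hij]
  have hdet : IsUnit (w e (e (K.U.π m))).det :=
    isUnit_iff_ne_zero.2 (hw.posDef e _ h).det_pos.ne'
  calc p e (e (K.U.π m)) = w e (e (K.U.π m)) * ((w e (e (K.U.π m)))⁻¹ * p e (e (K.U.π m))) := by
        rw [← Matrix.mul_assoc, Matrix.mul_nonsing_inv _ hdet, Matrix.one_mul]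
    _ = w e (e (K.U.π m)) := by rw [h5, Matrix.mul_one]

end main

end Vale.Agent.P284.H248
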