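import Vale.Agent.P284.H248.Defs
import Vale.Agent.P285.H281.Defs
import Mathlib.Topology.IsLocalHomeomorph

/-!
# P284: the covering `p : V × Y → X` and the line bundle `L ⊂ Ω^ν` descended from `K_Y`
-/

open scoped Manifold ContDiff Topology
open Filter Set
open Vale.Agent.P272.K Vale.Agent.P285.H281
open Vale.Agent.P272.K.QN (jm)

noncomputable section

namespace Vale.Agent.P284.H248

section
variable {V : Type} [NormedAddCommGroup V] [InnerProductSpace ℂ V] {ν : ℕ} {Y : Type}
  [TopologicalSpace Y] [ChartedSpace (Cm ν) Y] {Γ : Type} [Group Γ]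

/-- the action on `V × Y` -/
def act (D : Dat V ν Y Γ) (γ : Γ) (a : V × Y) : V × Y := (D.A γ a.1 + D.v γ, D.h γ a.2)

/-- `X` is the quotient of `V × Y` by the action of `Γ`. -/
structure Cov (D : Dat V ν Y Γ) (n : ℕ) (X : Type) [TopologicalSpace X] [ChartedSpace (Cm n) X] where
  p : V × Y → X
  surj : Function.Surjective p
  lh : IsLocalHomeomorph p
  fib : ∀ a b, p a = p b ↔ ∃ γ, act D γ a = b
  holV : ∀ (y : Y) (z : V) (e : Chart n X), At e (p (z, y)) →
    ContDiffAt ℂ ω (fun z' => e (p (z', y))) z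
  holY : ∀ (z : V) (y : Y) (c : Chart ν Y) (e : Chart n X), At c y → At e (p (z, y)) →
    ContDiffAt ℂ ω (fun w => e (p (z, c.symm w))) (c y)
  holQ : ∀ (f : OpenPartialHomeomorph (V × Y) X) (a : V × Y), (f : V × Y → X) = p → a ∈ f.source →
    ∀ (e : Chart n X) (c : Chart ν Y), At e (p a) → At c a.2 →
      ContDiffAt ℂ ω (fun u => c (f.symm (e.symm u)).2) (e (p a))
  holZ : ∀ (f : OpenPartialHomeomorph (V × Y) X) (a : V × Y), (f : V × Y → X) = p → a ∈ f.source →
    ∀ (e : Chart n X), At e (p a) → ContDiffAt ℂ ω (fun u => (f.symm (e.symm u)).1) (e (p a))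

variable (D : Dat V ν Y Γ)

theorem act_mul (γ δ : Γ) (a : V × Y) : act D (γ * δ) a = act D γ (act D δ a) := by
  simp only [act, D.v_mul, D.h_mul, map_mul, map_add, add_assoc]
  rfl

theorem act_one (a : V × Y) : act D 1 a = a := by
  have h1 : D.v 1 = 0 := by
    have h := D.v_mul 1 1
    rw [mul_one, map_one] at h
    have h2 : D.v 1 = D.v 1 + D.v 1 := h
    simpa using h2
  simp only [act, map_one, h1, add_zero, D.h_one]
  rfl

theorem act_free (γ : Γ) (a : V × Y) (h : act D γ a = a) : γ = 1 :=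
  D.free γ a.1 a.2 (congrArg Prod.fst h) (congrArg Prod.snd h)

theorem act_inj {γ δ : Γ} {a : V × Y} (h : act D γ a = act D δ a) : γ = δ := by
  have h1 : act D (δ⁻¹ * γ) a = a := by
    rw [act_mul, h, ← act_mul, inv_mul_cancel, act_one]
  have h2 := act_free D _ _ h1
  exact (inv_mul_eq_one.1 h2).symm

theorem act_cont (γ : Γ) : Continuous (act D γ) := by
  refine Continuous.prodMk ?_ ?_
  · exact ((D.A γ).continuous.comp continuous_fst).add continuous_const
  · exact (D.iso γ).cont.comp continuous_snd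

end

section
variable {V : Type} [NormedAddCommGroup V] [InnerProductSpace ℂ V] {ν : ℕ} {Y : Type}
  [TopologicalSpace Y] [ChartedSpace (Cm ν) Y] {Γ : Type} [Group Γ] {D : Dat V ν Y Γ}
  {n : ℕ} {X : Type} [TopologicalSpace X] [ChartedSpace (Cm n) X] (C : Cov D n X)

namespace Cov

theorem p_act (γ : Γ) (a : V × Y) : C.p (act D γ a) = C.p a :=
  ((C.fib a (act D γ a)).2 ⟨γ, rfl⟩).symm

/-- a local inverse of `p` at `a` -/
def loc (a : V × Y) : OpenPartialHomeomorph (V × Y) X := (C.lh a).choose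

theorem mem_loc (a : V × Y) : a ∈ (C.loc a).source := (C.lh a).choose_spec.1

theorem loc_eq (a : V × Y) : (C.loc a : V × Y → X) = C.p := (C.lh a).choose_spec.2.symm

/-- the local section of `p` -/
def σ (a : V × Y) (x : X) : V × Y := (C.loc a).symm x

/-- the `Y` component of the local section -/
def q (a : V × Y) (x : X) : Y := (C.σ a x).2

/-- the domain of the local section -/
def dom (a : V × Y) : Set X :=
  (C.loc a).target ∩ (C.loc a).symm ⁻¹' (Prod.snd ⁻¹' (chartAt (Cm ν) a.2).source)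

theorem isOpen_dom (a : V × Y) : IsOpen (C.dom a) :=
  (C.loc a).symm.isOpen_inter_preimage
    ((chartAt (Cm ν) a.2).open_source.preimage continuous_snd)

theorem p_σ {a : V × Y} {x : X} (hx : x ∈ (C.loc a).target) : C.p (C.σ a x) = x := by
  rw [← C.loc_eq a]
  exact (C.loc a).right_inv hx

theorem p_σ' {a : V × Y} {x : X} (hx : x ∈ C.dom a) : C.p (C.σ a x) = x := C.p_σ hx.1

theorem σ_p {a b : V × Y} (hb : b ∈ (C.loc a).source) : C.σ a (C.p b) = b := by
  rw [← C.loc_eq a]
  exact (C.loc a).left_inv hb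

theorem σ_p_self (a : V × Y) : C.σ a (C.p a) = a := C.σ_p (C.mem_loc a)

theorem p_mem_dom (a : V × Y) : C.p a ∈ C.dom a := by
  refine ⟨?_, ?_⟩
  · have := (C.loc a).map_source (C.mem_loc a)
    rwa [C.loc_eq] at this
  · have h1 : (C.loc a).symm (C.p a) = a := C.σ_p_self a
    show ((C.loc a).symm (C.p a)).2 ∈ (chartAt (Cm ν) a.2).source
    rw [h1]
    exact mem_chart_source (Cm ν) a.2

theorem q_mem {a : V × Y} {x : X} (hx : x ∈ C.dom a) : C.q a x ∈ (chartAt (Cm ν) a.2).source :=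
  hx.2

theorem at_q {a : V × Y} {x : X} (hx : x ∈ C.dom a) : At (chartAt (Cm ν) a.2) (C.q a x) :=
  ⟨chart_mem_atlas _ _, C.q_mem hx⟩

theorem continuousAt_σ {a : V × Y} {x : X} (hx : x ∈ C.dom a) : ContinuousAt (C.σ a) x :=
  (C.loc a).symm.continuousAt hx.1

theorem σ_mem {a : V × Y} {x : X} (hx : x ∈ C.dom a) : C.σ a x ∈ (C.loc a).source :=
  (C.loc a).symm.map_source hx.1

/-- two local sections differ by a deck transformation -/
theorem exists_tr {a b : V × Y} {x : X} (ha : x ∈ C.dom a) (hb : x ∈ C.dom b) :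
    ∃ γ, act D γ (C.σ a x) = C.σ b x :=
  (C.fib _ _).1 (by rw [C.p_σ' ha, C.p_σ' hb])

/-- the deck transformation is locally constant -/
theorem tr_eventually {a b : V × Y} {x : X} (ha : x ∈ C.dom a) (hb : x ∈ C.dom b) {γ : Γ}
    (h : act D γ (C.σ a x) = C.σ b x) : ∀ᶠ x' in 𝓝 x, act D γ (C.σ a x') = C.σ b x' := by
  have h1 : ContinuousAt (fun x' => act D γ (C.σ a x')) x :=
    (act_cont D γ).continuousAt.comp (C.continuousAt_σ ha)
  have h2 : ∀ᶠ x' in 𝓝 x, act D γ (C.σ a x') ∈ (C.loc b).source := by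
    refine h1.eventually ?_
    refine (C.loc b).open_source.mem_nhds ?_
    show act D γ (C.σ a x) ∈ (C.loc b).source
    rw [h]
    exact C.σ_mem hb
  filter_upwards [h2, (C.isOpen_dom a).mem_nhds ha] with x' hx' ha'
  have h3 := C.σ_p hx'
  rw [C.p_act, C.p_σ' ha'] at h3
  exact h3.symm

/-- Jacobian determinant of `h γ` in the preferred charts -/
def G (γ : Γ) (a b : V × Y) (x : X) : ℂ :=
  (jm (rep (chartAt (Cm ν) a.2) (chartAt (Cm ν) b.2) (D.h γ)) (chartAt (Cm ν) a.2 (C.q a x))).det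

open Classical in
/-- transition function of the line bundle -/
def tr (a b : V × Y) (x : X) : ℂ :=
  if h : ∃ γ, act D γ (C.σ a x) = C.σ b x then C.G h.choose a b x else 0

theorem tr_eq {a b : V × Y} {x : X} {γ : Γ} (h : act D γ (C.σ a x) = C.σ b x) :
    C.tr a b x = C.G γ a b x := by
  have h' : ∃ γ, act D γ (C.σ a x) = C.σ b x := ⟨γ, h⟩
  have h2 : h'.choose = γ := act_inj D (h'.choose_spec.trans h.symm)
  rw [tr, dif_pos h', h2]

end Cov

end

end Vale.Agent.P284.H248
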