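import Vale.Agent.P272.K.Stmt
import Mathlib.AlgebraicTopology.FundamentalGroupoid.FundamentalGroup
import Mathlib.LinearAlgebra.Alternating.Basic
import Mathlib.GroupTheory.Index

/-!
# P284: holomorphic line bundles, Iitaka dimension, Bogomolov sheaves, special manifolds

Everything is expressed in the charts of a complex manifold `X` modelled on `ℂⁿ = Fin n → ℂ`
(conventions of `Vale.Agent.P272.K`: `At e x` says that `e` is a chart of the atlas, defined at `x`).
-/

open scoped Manifold ContDiff

noncomputable section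

namespace Vale.Agent.P284.H248

open Vale.Agent.P272.K

section
variable (n : ℕ) (X : Type) [TopologicalSpace X] [ChartedSpace (Cm n) X]

/-- A holomorphic line bundle `L` on `X`, trivial over the members `U i` of an open covering: `g i j`
is the holomorphic nowhere zero function on `U i ∩ U j` with `t_j = g i j • t_i`, where `t_i` is the
frame of `L` over `U i`. -/
structure LineBundle where
  ι : Type
  U : ι → Set X
  isOpen : ∀ i, IsOpen (U i)
  cover : ∀ x, ∃ i, x ∈ U i
  g : ι → ι → X → ℂ
  holo : ∀ i j (e : Chart n X) x, At e x → x ∈ U i → x ∈ U j →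
    ContDiffAt ℂ ω (fun z => g i j (e.symm z)) (e x)
  ne_zero : ∀ i j x, x ∈ U i → x ∈ U j → g i j x ≠ 0
  cocycle : ∀ i j k x, x ∈ U i → x ∈ U j → x ∈ U k → g i j x * g j k x = g i k x

end

section
variable {n : ℕ} {X : Type} [TopologicalSpace X] [ChartedSpace (Cm n) X]

/-- A holomorphic section of the power `L^m`: over `U i` it is `f i • t_i^m`. -/
structure Sec (L : LineBundle n X) (m : ℕ) where
  f : L.ι → X → ℂ
  holo : ∀ i (e : Chart n X) x, At e x → x ∈ L.U i → ContDiffAt ℂ ω (fun z => f i (e.symm z)) (e x)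
  change : ∀ i j x, x ∈ L.U i → x ∈ L.U j → f i x = L.g i j x ^ m * f j x

/-- A morphism of sheaves `L → Ω_X^p` (linear over the holomorphic functions): the image of the frame
`t_i` is a holomorphic `p`-form on `U i`, which in the chart `e` of `X` has the value `form i e z` at
`z` (an alternating form of degree `p` on `ℂⁿ`). -/
structure Mor (L : LineBundle n X) (p : ℕ) where
  form : L.ι → Chart n X → Cm n → (Cm n) [⋀^Fin p]→ₗ[ℂ] ℂ
  holo : ∀ i (e : Chart n X) x, At e x → x ∈ L.U i → ∀ v : Fin p → Cm n,
    ContDiffAt ℂ ω (fun z => form i e z v) (e x)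
  change : ∀ i (e e' : Chart n X) x, At e x → At e' x → x ∈ L.U i →
    form i e (e x) = (form i e' (e' x)).compLinearMap
      (fderiv ℂ (fun z => e' (e.symm z)) (e x)).toLinearMap
  glue : ∀ i j (e : Chart n X) x, At e x → x ∈ L.U i → x ∈ L.U j →
    form j e (e x) = L.g i j x • form i e (e x)

/-- The morphism is not zero. -/
def Mor.Nonzero {L : LineBundle n X} {p : ℕ} (φ : Mor L p) : Prop :=
  ∃ i e x, At e x ∧ x ∈ L.U i ∧ φ.form i e (e x) ≠ 0

/-- `κ(X, L) ≥ k`: for some `m ≥ 1` the image of the meromorphic map of `X` defined by the sections of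
`L^m` has dimension at least `k`, i.e. the rank of this map is at least `k` at some point: there are
sections `s_0, …, s_k` of `L^m` and a point `x` with `s_0(x) ≠ 0` where the differentials of
`s_1 / s_0, …, s_k / s_0` are linearly independent. (For `k = 0`: some `L^m` has a nonzero section.) -/
def IitakaGE (L : LineBundle n X) (k : ℕ) : Prop :=
  ∃ m : ℕ, 1 ≤ m ∧ ∃ (s : Fin (k + 1) → Sec L m) (i : L.ι) (e : Chart n X) (x : X),
    At e x ∧ x ∈ L.U i ∧ (s 0).f i x ≠ 0 ∧
    LinearIndependent ℂ fun a : Fin k =>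
      fderiv ℂ (fun z => (s a.succ).f i (e.symm z) / (s 0).f i (e.symm z)) (e x)

/-- `κ(X, L) = k`. -/
def IitakaEQ (L : LineBundle n X) (k : ℕ) : Prop := IitakaGE L k ∧ ¬ IitakaGE L (k + 1)

variable (n X) in
/-- `X` is special: there are no `1 ≤ p ≤ n` and no line bundle `L` with `κ(X, L) = p` which admits a
nonzero morphism `L → Ω_X^p` (no Bogomolov sheaf). -/
def Special : Prop :=
  ∀ p : ℕ, 1 ≤ p → p ≤ n → ∀ L : LineBundle n X, IitakaEQ L p → ∀ φ : Mor L p, ¬ φ.Nonzero

end

/-- The group `G` has an abelian subgroup of finite index. -/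
def VirtuallyAbelian (G : Type*) [Group G] : Prop :=
  ∃ H : Subgroup G, H.FiniteIndex ∧ ∀ a ∈ H, ∀ b ∈ H, a * b = b * a

end Vale.Agent.P284.H248
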