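import Vale.Agent.P284.H248.Asm
import Vale.Agent.P285.H716.NN.Chi
import Vale.Agent.P285.H591.C7.Ke

/-!
# P284: special compact Kähler manifolds with nonpositive holomorphic sectional curvature are flat
-/

open scoped Manifold ContDiff ComplexOrder Topology Matrix
open Complex Vale.Agent.P272.K Vale.Agent.P272.K.INT Vale.Agent.P278.H837 Vale.Agent.P299.D
open Vale.Agent.P299.H956
open Vale.Agent.P299.D1 (Pr UC exists_uc exists_prodQ)
open Vale.Agent.P285.H281 Vale.Agent.P285.H766
open Vale.Agent.P285.H591 (FlatSplit)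
open Vale.Agent.P285.H591.C7 (bas bas_symm BF exists_cov parEnd_of_split isProjF_of_split
  ke_factor)

set_option linter.all false

noncomputable section

namespace Vale.Agent.P284.H248

section flat
variable {n : ℕ} {X : Type} [TopologicalSpace X]
  [ChartedSpace (Cm n) X] {w : FormM n X}

variable (w) in
/-- the curvature of `w` vanishes -/
def IsFlat : Prop := ∀ e x, At e x → ∀ i j k l, curv (w e) (e x) i j k l = 0

variable [IsManifold 𝓘(ℂ, Cm n) ω X]

theorem flatSplit_of_flat (hw : IsKahler w) (hf : IsFlat w) : FlatSplit w w n := by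
  have hinv : ∀ e x, At e x → (w e (e x))⁻¹ * w e (e x) = 1 := fun e x hx =>
    Matrix.nonsing_inv_mul _ (isUnit_iff_ne_zero.2 (hw.posDef e x hx).det_pos.ne')
  refine ⟨IsKahler.isClosedForm hw, fun e x hx => (hw.posDef e x hx).posSemidef,
    fun e x hx => ?_, fun e x hx => ?_, fun e x hx => ?_, fun e x hx l => ?_,
    fun e x hx ξ _ j k l => ?_⟩
  · rw [sub_self]
    exact Matrix.PosSemidef.zero
  · rw [hinv e x hx, Matrix.mul_one]
  · rw [hinv e x hx, Matrix.trace_one, Fintype.card_fin]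
  · rw [C2.DM_congr (N := fun _ => (1 : Matrix (Fin n) (Fin n) ℂ)), C2.DM_const]
    filter_upwards [hx.nhds_target] with z hz
    have := hinv e _ (At.of_target hx.1 hz)
    rwa [e.right_inv hz] at this
  · exact Finset.sum_eq_zero fun i _ => by rw [hf e x hx, mul_zero]

end flat

section main
variable {n : ℕ} {X : Type} [TopologicalSpace X] [T2Space X] [CompactSpace X] [ConnectedSpace X]
  [ChartedSpace (Cm n) X] [IsManifold 𝓘(ℂ, Cm n) ω X] {w : FormM n X}

/-- in the flat case there is no factor `Y` -/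
theorem dim_zero_of_flat (hw : IsKahler w) (K : Vale.Agent.P285.H591.C7.Cov n X w w)
    (hf : FlatSplit w w n) : K.P.d 1 = 0 := by
  obtain ⟨m⟩ := (inferInstance : Nonempty K.U.M)
  have hi : Immersive n n K.U.π := immersive_of_localDiffeo K.U.loc
  have hm := at_chartAt (n := n) m
  have hx := at_chartAt (n := n) (K.U.π m)
  have hc0 := at_chartAt (n := K.P.d 0) (K.P.Φ m 0)
  have hc1 := at_chartAt (n := K.P.d 1) (K.P.Φ m 1)
  have hB : BF w w (chartAt (Cm n) (K.U.π m)) (chartAt (Cm n) (K.U.π m) (K.U.π m)) = 1 := by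
    show (((w _ _)⁻¹ * w _ _ : Matrix (Fin n) (Fin n) ℂ)).map (starRingEnd ℂ) = 1
    rw [Matrix.nonsing_inv_mul _ (isUnit_iff_ne_zero.2 (hw.posDef _ _ hx).det_pos.ne')]
    ext i j
    by_cases hij : i = j
    · subst hij; simp
    · simp [Matrix.one_apply_ne hij]
  have h1 : pullE K.U.π (BF w w) (chartAt (Cm n) m) (chartAt (Cm n) m m) = 1 := by
    rw [pullE_eq (parEnd_of_split hw hf).hol K.U.loc.contMDiff hi hm hx, hB, Matrix.mul_one,
      Matrix.nonsing_inv_mul _ (jac_isUnit hi hm hx)]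
  have h2 : jacF (fun m => K.P.Φ m 1) (chartAt (Cm n) m) (chartAt (Cm (K.P.d 1)) (K.P.Φ m 1)) m *
      pullE K.U.π (BF w w) (chartAt (Cm n) m) (chartAt (Cm n) m m) = 0 :=
    K.ker 0 1 (by decide) _ m _ hm hc1
  rw [h1, Matrix.mul_one] at h2
  have hinj : Function.Injective
      (jacF (fun m => K.P.Φ m 0) (chartAt (Cm n) m) (chartAt (Cm (K.P.d 0)) (K.P.Φ m 0)) m).mulVecLin := by
    rw [← LinearMap.ker_eq_bot, LinearMap.ker_eq_bot']
    intro u hu
    refine K.P.jac_inj (chartAt (Cm n) m) m (fun i => chartAt (Cm (K.P.d i)) (K.P.Φ m i)) hm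
      (fun i => at_chartAt (n := K.P.d i) (K.P.Φ m i)) _ ?_
    · intro i
      fin_cases i
      · exact hu
      · show (jacF (fun m => K.P.Φ m 1) (chartAt (Cm n) m) (chartAt (Cm (K.P.d 1)) (K.P.Φ m 1)) m).mulVec u
          = 0
        rw [h2, Matrix.zero_mulVec]
  have h3 := LinearMap.finrank_le_finrank_of_injective hinj
  have h4 := K.P.dsum
  rw [Fin.sum_univ_two] at h4
  simp only [Module.finrank_fintype_fun_eq_card, Fintype.card_fin] at h3
  omega

theorem isClosedForm_zero : IsClosedForm (fun _ _ => 0 : FormM n X) := by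
  refine ⟨fun e x hx i j => contDiffAt_const, fun e e' x hx hx' => by simp, fun e x hx i k l => ?_⟩
  have h : ∀ j : Fin n, dz j (fun _ : Cm n => (0 : ℂ)) (e x) = 0 := fun j => C2.dz_const j 0
  simp only [Matrix.zero_apply]
  rw [h, h]

/-- special + nonpositive holomorphic sectional curvature: flat -/
theorem flat_of_special (hn : 1 ≤ n) (hw : IsKahler w) (hR : NonposHSC w) (hsp : Special n X) :
    IsFlat w := by
  obtain ⟨k, hk, p, χ, hχ, hs, -, hke, hs', -, hp⟩ :=
    Vale.Agent.P285.H716.NN.exists_semi_chi hn hw hR isClosedForm_zero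
      (fun e x _ => Matrix.PosSemidef.zero)
  obtain ⟨K⟩ := exists_cov hχ hs (parEnd_of_split hχ hs) (isProjF_of_split hχ hs)
  have hke' := ke_factor K hχ hs fun e x hx => by
    rw [hke e x hx]
    exact add_zero _
  obtain ⟨D, C, -, hprop⟩ := exists_covK K hχ hke'
  have hd : K.P.d 1 = 0 := C.dim_zero hprop hsp
  intro e x hx i j k l
  have h1 := eq_of_dim_zero K hχ hs hd e x hx
  have hχd : IsUnit (χ e (e x)).det := isUnit_iff_ne_zero.2 (hχ.posDef e x hx).det_pos.ne'
  have hwd : IsUnit (w e (e x)).det := isUnit_iff_ne_zero.2 (hw.posDef e x hx).det_pos.ne'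
  have h2 := hp e x hx
  rw [h1] at h2
  have h3 : (w e (e x))⁻¹ * χ e (e x) = 1 := by
    have := congrArg (fun A => (χ e (e x))⁻¹ * A) h2
    simp only [← Matrix.mul_assoc, Matrix.nonsing_inv_mul _ hχd, Matrix.one_mul] at this
    exact this
  have h4 : w e (e x) = p e (e x) := by
    rw [h1]
    calc w e (e x) = w e (e x) * ((w e (e x))⁻¹ * χ e (e x)) := by rw [h3, Matrix.mul_one]
      _ = χ e (e x) := by rw [← Matrix.mul_assoc, Matrix.mul_nonsing_inv _ hwd, Matrix.one_mul]
  have h5 := hs'.flat e x hx (Pi.single i 1) (by rw [h4, sub_self, Matrix.vecMul_zero]) j k l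
  rw [Finset.sum_eq_single i (fun b _ hb => by rw [Pi.single_eq_of_ne hb, zero_mul])
    (fun h => absurd (Finset.mem_univ i) h), Pi.single_eq_same, one_mul] at h5
  exact h5

/-- the covering of a flat manifold by a Euclidean space -/
theorem exists_cov_of_flat (hw : IsKahler w) (hf : IsFlat w) :
    ∃ (K : Vale.Agent.P285.H591.C7.Cov n X w w) (D : Dat (VK K) (K.P.d 1) (K.P.Y 1) (Deck K.U.π))
      (C : Cov D n X), K.P.d 1 = 0 ∧ (∀ a, C.p a = K.U.π ((homeoK K).symm a)) ∧ ∀ S : Set (K.P.Y 1), IsCompact S →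
        {f : K.P.Y 1 → K.P.Y 1 | (∃ γ, f = D.h γ) ∧ (f '' S ∩ S).Nonempty}.Finite := by
  have hs := flatSplit_of_flat hw hf
  obtain ⟨K⟩ := exists_cov hw hs (parEnd_of_split hw hs) (isProjF_of_split hw hs)
  have hd := dim_zero_of_flat hw K hs
  obtain ⟨D, C, hC, hprop⟩ := exists_covK K hw fun e y hy => by
    ext i
    have : IsEmpty (Fin (K.P.d 1)) := by rw [hd]; infer_instance
    exact this.elim i
  exact ⟨K, D, C, hd, hC, hprop⟩

/-- a flat compact Kähler manifold is special -/
theorem special_of_flat (hw : IsKahler w) (hf : IsFlat w) : Special n X := by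
  obtain ⟨K, D, C, hd, -, hprop⟩ := exists_cov_of_flat hw hf
  exact C.special_of_dim_zero hd hprop

/-- the fundamental group of a flat compact Kähler manifold is virtually abelian -/
theorem virtuallyAbelian_of_flat (hw : IsKahler w) (hf : IsFlat w) (x : X) :
    VirtuallyAbelian (FundamentalGroup X x) := by
  obtain ⟨K, D, C, hd, -, hprop⟩ := exists_cov_of_flat hw hf
  have : SimplyConnectedSpace (VK K × K.P.Y 1) :=
    (homeoK K).symm.toHomotopyEquiv.simplyConnectedSpace
  exact C.fundamentalGroup (virtuallyAbelian_of_dim_zero D hd hprop) x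

/-- a flat compact Kähler manifold is the quotient of `ℂⁿ` by a group which contains a cocompact
group of translations -/
theorem torus_of_flat (hw : IsKahler w) (hf : IsFlat w) :
    ∃ (q : Cm n → X) (Λ : AddSubgroup (Cm n)) (R : ℝ),
      IsLocalDiffeomorph 𝓘(ℂ, Cm n) 𝓘(ℂ, Cm n) ω q ∧ Function.Surjective q ∧
      (∀ l ∈ Λ, ∀ z, q (z + l) = q z) ∧ ∀ z, ∃ l ∈ Λ, ‖z - l‖ ≤ R := by
  obtain ⟨K, D, C, hd, hC, hprop⟩ := exists_cov_of_flat hw hf
  have hsub : Subsingleton (K.P.Y 1) := subsingleton_of_dim_zero hd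
  obtain ⟨L, Γ₂, Γ₃, hfi, hL2, h32, -, hA2, hL, -, hdec, hfree, hpd, hcc, -, R, hR⟩ :=
    exists_split D hprop
  obtain ⟨y₀⟩ := (inferInstance : Nonempty (K.P.Y 1))
  have hd0 : K.P.d 0 = n := by
    have h4 := K.P.dsum
    rw [Fin.sum_univ_two] at h4
    omega
  let T : Cm n ≃L[ℂ] VK K := ContinuousLinearEquiv.ofFinrankEq (by
    rw [finrank_euclideanSpace, Module.finrank_fintype_fun_eq_card, Fintype.card_fin,
      Fintype.card_fin, hd0])
  -- the diffeomorphism with the universal covering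
  let Ψ : Diffeomorph 𝓘(ℂ, Cm n) 𝓘(ℂ, Cm n) (Cm n) K.U.M ω :=
    { toFun := fun z => (homeoK K).symm (T z, y₀)
      invFun := fun m => T.symm (homeoK K m).1
      left_inv := fun z => by
        simp only [Homeomorph.apply_symm_apply, ContinuousLinearEquiv.symm_apply_apply]
      right_inv := fun m => by
        refine (homeoK K).injective ?_
        rw [(homeoK K).apply_symm_apply]
        exact Prod.ext (T.apply_symm_apply _) (Subsingleton.elim _ _)
      contMDiff_toFun := (sliceV K y₀).comp T.contDiff.contMDiff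
      contMDiff_invFun := by
        have h1 : ContMDiff 𝓘(ℂ, Cm n) 𝓘(ℂ, Cm (K.P.d 0)) ω fun m => K.dev (K.P.Φ m 0) :=
          K.dev_hol.comp (K.P.Φ_hol 0)
        have h2 : ContDiff ℂ ω fun z : Cm (K.P.d 0) => T.symm (WithLp.toLp 2 z) :=
          T.symm.contDiff.comp (EuclideanSpace.equiv (Fin (K.P.d 0)) ℂ).symm.contDiff
        exact h2.contMDiff.comp h1 }
  have hq : ∀ z, C.p (T z, y₀) = K.U.π (Ψ z) := fun z => hC _
  have hv : ∀ a ∈ L, ∀ b, D.v (a * b) = D.v b + D.v a := by
    intro a ha b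
    rw [D.v_mul, ((hL a).1 ha).1]
    rfl
  have hv1 : D.v 1 = 0 := by
    have h := D.v_mul 1 1
    rw [mul_one, map_one] at h
    have h2 : D.v 1 = D.v 1 + D.v 1 := h
    simpa using h2
  let Λ : AddSubgroup (Cm n) :=
    { carrier := {z | ∃ l ∈ L, T z = D.v l}
      zero_mem' := ⟨1, L.one_mem, by rw [map_zero, hv1]⟩
      add_mem' := by
        rintro a b ⟨l, hl, ha⟩ ⟨m, hm, hb⟩
        exact ⟨m * l, L.mul_mem hm hl, by rw [map_add, ha, hb, hv m hm]⟩
      neg_mem' := by
        rintro a ⟨l, hl, ha⟩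
        refine ⟨l⁻¹, L.inv_mem hl, ?_⟩
        have h := hv l hl l⁻¹
        rw [mul_inv_cancel, hv1] at h
        rw [map_neg, ha]
        exact (eq_neg_of_add_eq_zero_left h.symm).symm }
  refine ⟨fun z => C.p (T z, y₀), Λ, ‖(T.symm : VK K →L[ℂ] Cm n)‖ * R, ?_, ?_, ?_, ?_⟩
  · intro z
    have h1 := IsLocalDiffeomorphAt.comp _ _ (Ψ.isLocalDiffeomorph z) (K.U.loc (Ψ z))
    have h2 : (fun z => C.p (T z, y₀)) = K.U.π ∘ Ψ := funext hq
    rw [h2]
    exact h1
  · intro x
    obtain ⟨⟨z, y⟩, hz⟩ := C.surj x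
    refine ⟨T.symm z, ?_⟩
    show C.p (T (T.symm z), y₀) = x
    rw [T.apply_symm_apply, Subsingleton.elim y₀ y, hz]
  · rintro a ⟨l, hl, ha⟩ z
    have h1 : act D l (T z, y₀) = (T (z + a), y₀) := by
      simp only [act, ((hL l).1 hl).1, ((hL l).1 hl).2, map_add, ha]
      rfl
    show C.p (T (z + a), y₀) = C.p (T z, y₀)
    rw [← h1, C.p_act]
  · intro z
    obtain ⟨l, hl, hlR⟩ := hR (T z)
    refine ⟨T.symm (D.v l), ⟨l, hl, T.apply_symm_apply _⟩, ?_⟩
    have h1 : z - T.symm (D.v l) = (T.symm : VK K →L[ℂ] Cm n) (T z - D.v l) := by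
      simp [map_sub]
    rw [h1]
    refine (ContinuousLinearMap.le_opNorm _ _).trans ?_
    refine mul_le_mul_of_nonneg_left ?_ (norm_nonneg _)
    rw [← norm_neg, neg_sub]
    exact hlR

/-- **P284 for nonpositive holomorphic sectional curvature** -/
theorem main (hw : IsKahler w) (hR : NonposHSC w) :
    (Special n X ↔ IsFlat w) ∧ (Special n X → ∀ x : X, VirtuallyAbelian (FundamentalGroup X x)) := by
  have h1 : Special n X → IsFlat w := by
    intro hsp
    rcases Nat.eq_zero_or_pos n with h0 | hn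
    · subst h0
      intro e x hx i
      exact i.elim0
    · exact flat_of_special hn hw hR hsp
  exact ⟨⟨h1, special_of_flat hw⟩, fun hsp x => virtuallyAbelian_of_flat hw (h1 hsp) x⟩

end main

end Vale.Agent.P284.H248
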