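import Vale.Agent.P272.KOD.Defs
import Vale.Agent.P272.K.Inv.Chart
import Mathlib.Analysis.Analytic.Uniqueness

/-!
# P284: identity theorem for sections of the powers of the canonical bundle
-/

open scoped Manifold ContDiff Topology
open Filter Set
open Vale.Agent.P272.K Vale.Agent.P272.KOD

noncomputable section

namespace Vale.Agent.P284.H248

variable {n m : ℕ} {Y : Type*} [TopologicalSpace Y] [ChartedSpace (Cm n) Y]

/-- vanishing of a section at a point does not depend on the chart -/
theorem coeff_zero_iff [IsManifold 𝓘(ℂ, Cm n) ω Y] (s : PSec n m Y) {e e' : Chart n Y} {y : Y}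
    (h : At e y) (h' : At e' y) : s.coeff e (e y) = 0 ↔ s.coeff e' (e' y) = 0 := by
  rw [s.change e e' y h h']
  have := jacM_det_ne_zero h h'
  constructor
  · intro h0
    rcases mul_eq_zero.1 h0 with h1 | h1
    · exact h1
    · exact absurd h1 (pow_ne_zero _ this)
  · intro h0
    rw [h0, zero_mul]

theorem at_chart (y : Y) : At (chartAt (Cm n) y) y := ⟨chart_mem_atlas _ _, mem_chart_source _ _⟩

/-- Identity theorem. -/
theorem ident [IsManifold 𝓘(ℂ, Cm n) ω Y] [ConnectedSpace Y] (s : PSec n m Y)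
    {e₁ : Chart n Y} {y₁ : Y} (h₁ : At e₁ y₁) (hz : ∀ᶠ z in 𝓝 (e₁ y₁), s.coeff e₁ z = 0)
    {e : Chart n Y} {y : Y} (h : At e y) : s.coeff e (e y) = 0 := by
  set Z : Set Y := {y | ∀ᶠ y' in 𝓝 y, s.val y' = 0} with hZ
  have hval : ∀ {e : Chart n Y} {y : Y}, At e y →
      ((∀ᶠ z in 𝓝 (e y), s.coeff e z = 0) ↔ y ∈ Z) := by
    intro e y h
    constructor
    · intro h1
      have h2 : ∀ᶠ y' in 𝓝 y, s.coeff e (e y') = 0 := (e.continuousAt h.2).eventually h1
      filter_upwards [h2, e.open_source.mem_nhds h.2] with y' hy' hs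
      exact (coeff_zero_iff s ⟨h.1, hs⟩ (at_chart y')).1 hy'
    · intro h1
      have h2 : ContinuousAt e.symm (e y) := e.continuousAt_symm h.mem_target
      have h3 : ∀ᶠ z in 𝓝 (e y), s.val (e.symm z) = 0 := h2.eventually (by
        rw [h.left_inv]; exact h1)
      filter_upwards [h3, h.nhds_target] with z hz' ht
      have hA : At e (e.symm z) := At.of_target h.1 ht
      have := (coeff_zero_iff s hA (at_chart (e.symm z))).2 hz'
      rwa [e.right_inv ht] at this
  have hopen : IsOpen Z := by
    rw [isOpen_iff_eventually]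
    intro y hy
    exact hy.eventually_nhds
  have hclosed : IsClosed Z := by
    rw [isClosed_iff_frequently]
    intro y hy
    have hA := at_chart (n := n) y
    rw [← hval hA]
    set e := chartAt (Cm n) y with he
    have han : ∀ᶠ z in 𝓝 (e y), AnalyticAt ℂ (s.coeff e) z ∧ z ∈ e.target :=
      (s.holo e y hA).eventually_analyticAt.and hA.nhds_target
    obtain ⟨r, hr, hb⟩ := Metric.eventually_nhds_iff_ball.1 han
    have h1 : ∀ᶠ y' in 𝓝 y, e y' ∈ Metric.ball (e y) r ∧ y' ∈ e.source :=
      ((e.continuousAt hA.2).eventually (Metric.ball_mem_nhds _ hr)).and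
        (e.open_source.mem_nhds hA.2)
    obtain ⟨y', hy', hyb, hys⟩ := (hy.and_eventually h1).exists
    have hA' : At e y' := ⟨hA.1, hys⟩
    have h2 := (hval hA').2 hy'
    have h3 : AnalyticOnNhd ℂ (s.coeff e) (Metric.ball (e y) r) := fun z hz => (hb z hz).1
    have h4 := h3.eqOn_zero_of_preconnected_of_eventuallyEq_zero
      (convex_ball _ _).isPreconnected hyb h2
    filter_upwards [Metric.ball_mem_nhds (e y) hr] with z hz' using h4 hz'
  have huniv : Z = univ := IsClopen.eq_univ ⟨hclosed, hopen⟩ ⟨y₁, (hval h₁).1 hz⟩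
  have hy : y ∈ Z := by rw [huniv]; trivial
  exact ((hval h).2 hy).self_of_nhds

end Vale.Agent.P284.H248
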