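import Vale.Agent.P285.H281.Defs
import Vale.Agent.P285.H266.Gram
import Vale.Agent.P272.K.Inv.Chart

/-!
# P284: the Jacobians of the maps `h γ` in charts
-/

open scoped Manifold ContDiff Topology
open Filter Set
open Vale.Agent.P272.K Vale.Agent.P285.H281
open Vale.Agent.P272.K.QN (jm)

noncomputable section

namespace Vale.Agent.P284.H248

variable {V : Type} [NormedAddCommGroup V] [InnerProductSpace ℂ V] {ν : ℕ} {Y : Type}
  [TopologicalSpace Y] [ChartedSpace (Cm ν) Y] {Γ : Type} [Group Γ] (D : Dat V ν Y Γ)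

theorem rep_holo {γ : Γ} {y : Y} {c c' : Chart ν Y} (hc : At c y) (hc' : At c' (D.h γ y)) :
    ContDiffAt ℂ ω (rep c c' (D.h γ)) (c y) := (D.iso γ).holo c c' y hc hc'

theorem rep_diff {γ : Γ} {y : Y} {c c' : Chart ν Y} (hc : At c y) (hc' : At c' (D.h γ y)) :
    DifferentiableAt ℂ (rep c c' (D.h γ)) (c y) := (rep_holo D hc hc').differentiableAt (by simp)

theorem rep_apply {γ : Γ} {y : Y} {c c' : Chart ν Y} (hc : At c y) :
    rep c c' (D.h γ) (c y) = c' (D.h γ y) := by
  rw [rep, At.left_inv hc]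

/-- `h γ` maps a neighbourhood into a given chart domain -/
theorem h_eventually {γ : Γ} {y : Y} {c c' : Chart ν Y} (hc : At c y) (hc' : At c' (D.h γ y)) :
    ∀ᶠ w in 𝓝 (c y), c'.symm (c' (D.h γ (c.symm w))) = D.h γ (c.symm w) := by
  have h1 : ContinuousAt (fun w => D.h γ (c.symm w)) (c y) := by
    refine ContinuousAt.comp (x := c y) (g := D.h γ) (D.iso γ).cont.continuousAt ?_
    exact c.symm.continuousAt (At.mem_target hc)
  have h2 : c'.source ∈ 𝓝 (D.h γ (c.symm (c y))) := by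
    rw [At.left_inv hc]
    exact c'.open_source.mem_nhds hc'.2
  filter_upwards [h1.eventually h2] with w hw
  exact c'.left_inv hw

theorem jm_rep_comp {γ δ : Γ} {y : Y} {c c' c'' : Chart ν Y} (hc : At c y)
    (hc' : At c' (D.h γ y)) (hc'' : At c'' (D.h δ (D.h γ y))) :
    jm (rep c c'' (D.h (δ * γ))) (c y) =
      jm (rep c' c'' (D.h δ)) (c' (D.h γ y)) * jm (rep c c' (D.h γ)) (c y) := by
  have h1 : rep c c'' (D.h (δ * γ)) =ᶠ[𝓝 (c y)]
      fun w => rep c' c'' (D.h δ) (rep c c' (D.h γ) w) := by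
    filter_upwards [h_eventually D hc hc'] with w hw
    simp only [rep]
    rw [hw, D.h_mul]
  rw [QN.jm_congr h1, QN.jm_comp, rep_apply D hc]
  · rw [rep_apply D hc]
    exact rep_diff D hc' hc''
  · exact rep_diff D hc hc'

theorem jm_rep_one {y : Y} {c c' : Chart ν Y} (_hc : At c y) (_hc' : At c' y) :
    jm (rep c c' (D.h 1)) (c y) = jacM c c' y := by
  have h1 : rep c c' (D.h 1) = fun w => c' (c.symm w) := by
    funext w
    simp only [rep, D.h_one]
  rw [h1]
  rfl

theorem jm_rep_id {γ : Γ} (hγ : ∀ y, D.h γ y = y) {y : Y} {c c' : Chart ν Y} (_hc : At c y)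
    (_hc' : At c' y) : jm (rep c c' (D.h γ)) (c y) = jacM c c' y := by
  have h1 : rep c c' (D.h γ) = fun w => c' (c.symm w) := by
    funext w
    simp only [rep, hγ]
  rw [h1]
  rfl

variable [IsManifold 𝓘(ℂ, Cm ν) ω Y]

theorem det_rep_ne_zero {γ : Γ} {y : Y} {c c' : Chart ν Y} (hc : At c y) (hc' : At c' (D.h γ y)) :
    (jm (rep c c' (D.h γ)) (c y)).det ≠ 0 := by
  have h1 : D.h γ⁻¹ (D.h γ y) = y := by rw [← D.h_mul, inv_mul_cancel, D.h_one]
  have hc2 : At c (D.h γ⁻¹ (D.h γ y)) := by rw [h1]; exact hc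
  have h2 := jm_rep_comp D hc hc' hc2
  rw [inv_mul_cancel, jm_rep_one D hc hc, jacM_self hc] at h2
  have h3 := congrArg Matrix.det h2
  rw [Matrix.det_one, Matrix.det_mul] at h3
  intro h0
  rw [h0, mul_zero] at h3
  exact one_ne_zero h3

end Vale.Agent.P284.H248
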