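import Vale.Agent.P284.H248.Cov
import Vale.Agent.P284.H248.Rep

/-!
# P284: the line bundle on `X` descended from `K_Y`
-/

open scoped Manifold ContDiff Topology
open Filter Set
open Vale.Agent.P272.K Vale.Agent.P285.H281
open Vale.Agent.P272.K.QN (jm)

noncomputable section

namespace Vale.Agent.P284.H248

variable {V : Type} [NormedAddCommGroup V] [InnerProductSpace ℂ V] {ν : ℕ} {Y : Type}
  [TopologicalSpace Y] [ChartedSpace (Cm ν) Y] {Γ : Type} [Group Γ] {D : Dat V ν Y Γ}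
  {n : ℕ} {X : Type} [TopologicalSpace X] [ChartedSpace (Cm n) X] (C : Cov D n X)

namespace Cov

variable {C} {a b : V × Y} {x : X} {γ : Γ} {e : Chart n X}

theorem h_q (h : act D γ (C.σ a x) = C.σ b x) : D.h γ (C.q a x) = C.q b x := congrArg Prod.snd h

theorem at_hq (hb : x ∈ C.dom b) (h : act D γ (C.σ a x) = C.σ b x) :
    At (chartAt (Cm ν) b.2) (D.h γ (C.q a x)) := by
  rw [h_q h]
  exact C.at_q hb

/-- the local submersion `X → Y` in charts is holomorphic -/
theorem holo_q (ha : x ∈ C.dom a) (he : At e x) :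
    ContDiffAt ℂ ω (fun u => chartAt (Cm ν) a.2 (C.q a (e.symm u))) (e x) := by
  have h1 := C.holQ (C.loc a) (C.σ a x) (C.loc_eq a) (C.σ_mem ha) e (chartAt (Cm ν) a.2)
  rw [C.p_σ' ha] at h1
  exact h1 he (C.at_q ha)

theorem nhds_symm {s : Set X} (hs : s ∈ 𝓝 x) (he : At e x) : ∀ᶠ u in 𝓝 (e x), e.symm u ∈ s := by
  have h1 : ContinuousAt e.symm (e x) := e.continuousAt_symm he.mem_target
  exact h1.eventually (by rw [he.left_inv]; exact hs)

theorem nhds_symm' {P : X → Prop} (hs : ∀ᶠ x' in 𝓝 x, P x') (he : At e x) :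
    ∀ᶠ u in 𝓝 (e x), P (e.symm u) := nhds_symm hs he

theorem dom_nhds (ha : x ∈ C.dom a) (he : At e x) : ∀ᶠ u in 𝓝 (e x), e.symm u ∈ C.dom a :=
  nhds_symm ((C.isOpen_dom a).mem_nhds ha) he

/-- relation between the submersions of two local sections -/
theorem q_rel (ha : x ∈ C.dom a) (hb : x ∈ C.dom b) (h : act D γ (C.σ a x) = C.σ b x)
    (he : At e x) : ∀ᶠ u in 𝓝 (e x), chartAt (Cm ν) b.2 (C.q b (e.symm u)) =
      rep (chartAt (Cm ν) a.2) (chartAt (Cm ν) b.2) (D.h γ)
        (chartAt (Cm ν) a.2 (C.q a (e.symm u))) := by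
  filter_upwards [nhds_symm' (C.tr_eventually ha hb h) he, dom_nhds ha he] with u hu hu'
  rw [rep_apply D (C.at_q hu'), h_q hu]

theorem G_ne_zero [IsManifold 𝓘(ℂ, Cm ν) ω Y] (ha : x ∈ C.dom a) (hb : x ∈ C.dom b)
    (h : act D γ (C.σ a x) = C.σ b x) : C.G γ a b x ≠ 0 :=
  det_rep_ne_zero D (C.at_q ha) (at_hq hb h)

theorem G_mul {c : V × Y} {δ : Γ} (ha : x ∈ C.dom a) (hb : x ∈ C.dom b) (hc : x ∈ C.dom c)
    (h : act D γ (C.σ a x) = C.σ b x) (h' : act D δ (C.σ b x) = C.σ c x) :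
    C.G γ a b x * C.G δ b c x = C.G (δ * γ) a c x := by
  have h1 : At (chartAt (Cm ν) c.2) (D.h δ (D.h γ (C.q a x))) := by
    rw [h_q h]; exact at_hq hc h'
  have h2 := jm_rep_comp D (C.at_q ha) (at_hq hb h) h1
  rw [G, G, G, h2, Matrix.det_mul, mul_comm, h_q h]

theorem G_holo (ha : x ∈ C.dom a) (hb : x ∈ C.dom b) (h : act D γ (C.σ a x) = C.σ b x)
    (he : At e x) : ContDiffAt ℂ ω (fun u => C.G γ a b (e.symm u)) (e x) := by
  have h1 : ContDiffAt ℂ ω (fun w => (jm (rep (chartAt (Cm ν) a.2) (chartAt (Cm ν) b.2) (D.h γ))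
      w).det) (chartAt (Cm ν) a.2 (C.q a (e.symm (e x)))) := by
    rw [he.left_inv]
    exact P285.H266.cd_det fun i j => QN.jm_holo (rep_holo D (C.at_q ha) (at_hq hb h)) i j
  exact ContDiffAt.comp (e x) (g := fun w => (jm (rep (chartAt (Cm ν) a.2)
    (chartAt (Cm ν) b.2) (D.h γ)) w).det) h1 (holo_q ha he)

theorem tr_near (ha : x ∈ C.dom a) (hb : x ∈ C.dom b) (h : act D γ (C.σ a x) = C.σ b x) :
    ∀ᶠ x' in 𝓝 x, C.tr a b x' = C.G γ a b x' := by
  filter_upwards [C.tr_eventually ha hb h] with x' hx'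
  exact C.tr_eq hx'

variable (C)
variable [IsManifold 𝓘(ℂ, Cm ν) ω Y]

/-- The line bundle on `X` descended from the pull back of `K_Y` to `V × Y`. -/
def LB : LineBundle n X where
  ι := V × Y
  U := C.dom
  isOpen := C.isOpen_dom
  cover x := by
    obtain ⟨a, rfl⟩ := C.surj x
    exact ⟨a, C.p_mem_dom a⟩
  g := C.tr
  holo a b e x he ha hb := by
    obtain ⟨γ, h⟩ := C.exists_tr ha hb
    refine (G_holo ha hb h he).congr_of_eventuallyEq ?_
    exact nhds_symm' (tr_near ha hb h) he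
  ne_zero a b x ha hb := by
    obtain ⟨γ, h⟩ := C.exists_tr ha hb
    rw [C.tr_eq h]
    exact G_ne_zero ha hb h
  cocycle a b c x ha hb hc := by
    obtain ⟨γ, h⟩ := C.exists_tr ha hb
    obtain ⟨δ, h'⟩ := C.exists_tr hb hc
    have h'' : act D (δ * γ) (C.σ a x) = C.σ c x := by rw [act_mul, h, h']
    rw [C.tr_eq h, C.tr_eq h', C.tr_eq h'', G_mul ha hb hc h h']

/-- the volume form of `Cm ν` -/
def vol (ν : ℕ) : (Cm ν) [⋀^Fin ν]→ₗ[ℂ] ℂ := Matrix.detRowAlternating

theorem vol_comp (A : Cm ν →ₗ[ℂ] Cm ν) : (vol ν).compLinearMap A = LinearMap.det A • vol ν := by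
  ext v
  simp only [AlternatingMap.compLinearMap_apply, AlternatingMap.smul_apply, smul_eq_mul, vol]
  have h1 : (fun i => A (v i)) = (Matrix.of v * (LinearMap.toMatrix' A).transpose) := by
    funext i
    funext j
    rw [Matrix.mul_apply]
    have := LinearMap.toMatrix'_mulVec A (v i)
    rw [← this]
    simp only [Matrix.mulVec, dotProduct, Matrix.transpose_apply, Matrix.of_apply]
    exact Finset.sum_congr rfl fun k _ => mul_comm _ _
  show Matrix.det (fun i => A (v i)) = _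
  rw [h1, Matrix.det_mul, Matrix.det_transpose, LinearMap.det_toMatrix', mul_comm]
  rfl

variable [IsManifold 𝓘(ℂ, Cm n) ω X]

/-- The inclusion `L → Ω^ν`. -/
def mor : Mor C.LB ν where
  form a e z := (vol ν).compLinearMap
    (fderiv ℂ (fun u => chartAt (Cm ν) a.2 (C.q a (e.symm u))) z).toLinearMap
  holo a e x he ha v := by
    have h1 := holo_q (C := C) ha he
    have h2 : ContDiffAt ℂ ω (fderiv ℂ fun u => chartAt (Cm ν) a.2 (C.q a (e.symm u))) (e x) :=
      h1.fderiv_right (m := ω) (by exact le_top)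
    refine P285.H266.cd_det fun i j => ?_
    have h3 : ContDiffAt ℂ ω (fun z => fderiv ℂ (fun u => chartAt (Cm ν) a.2
      (C.q a (e.symm u))) z (v i)) (e x) := h2.clm_apply contDiffAt_const
    exact (contDiffAt_pi.1 h3) j
  change a e e' x he he' ha := by
    have h1 : (fun u => chartAt (Cm ν) a.2 (C.q a (e.symm u))) =ᶠ[𝓝 (e x)]
        (fun u => chartAt (Cm ν) a.2 (C.q a (e'.symm u))) ∘ (fun u => e' (e.symm u)) := by
      filter_upwards [he.nhds_at he'] with u hu
      simp only [Function.comp]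
      rw [e'.left_inv hu.2.2.2]
    have h2 : (fun u => e' (e.symm u)) (e x) = e' x := by
      simp only [he.left_inv]
    have h3 : DifferentiableAt ℂ (fun u => chartAt (Cm ν) a.2 (C.q a (e'.symm u)))
        ((fun u => e' (e.symm u)) (e x)) := by
      rw [h2]
      exact (holo_q ha he').differentiableAt (by simp)
    have h4 := fderiv_comp (e x) (f := fun u => e' (e.symm u))
      (g := fun u => chartAt (Cm ν) a.2 (C.q a (e'.symm u))) h3 (transition_differentiableAt he he')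
    rw [h1.fderiv_eq, h4]
    simp only [he.left_inv]
    rfl
  glue a b e x he ha hb := by
    obtain ⟨γ, h⟩ := C.exists_tr ha hb
    have h1 : (fun u => chartAt (Cm ν) b.2 (C.q b (e.symm u))) =ᶠ[𝓝 (e x)]
        (rep (chartAt (Cm ν) a.2) (chartAt (Cm ν) b.2) (D.h γ)) ∘
          (fun u => chartAt (Cm ν) a.2 (C.q a (e.symm u))) := q_rel ha hb h he
    have h2 : (fun u => chartAt (Cm ν) a.2 (C.q a (e.symm u))) (e x) =
        chartAt (Cm ν) a.2 (C.q a x) := by simp only [he.left_inv]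
    have h3 : DifferentiableAt ℂ (rep (chartAt (Cm ν) a.2) (chartAt (Cm ν) b.2) (D.h γ))
        ((fun u => chartAt (Cm ν) a.2 (C.q a (e.symm u))) (e x)) := by
      rw [h2]
      exact rep_diff D (C.at_q ha) (at_hq hb h)
    have h0 := fderiv_comp (e x) (f := fun u => chartAt (Cm ν) a.2 (C.q a (e.symm u)))
      (g := rep (chartAt (Cm ν) a.2) (chartAt (Cm ν) b.2) (D.h γ)) h3
      ((holo_q ha he).differentiableAt (by simp))
    rw [h1.fderiv_eq, h0]
    simp only [he.left_inv]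
    have h4 : (((fderiv ℂ (rep (chartAt (Cm ν) a.2) (chartAt (Cm ν) b.2) (D.h γ))
        (chartAt (Cm ν) a.2 (C.q a x))).comp (fderiv ℂ (fun u => chartAt (Cm ν) a.2
          (C.q a (e.symm u))) (e x))).toLinearMap) =
        (fderiv ℂ (rep (chartAt (Cm ν) a.2) (chartAt (Cm ν) b.2) (D.h γ))
        (chartAt (Cm ν) a.2 (C.q a x))).toLinearMap.comp (fderiv ℂ (fun u => chartAt (Cm ν) a.2
          (C.q a (e.symm u))) (e x)).toLinearMap := rfl
    rw [h4, ← AlternatingMap.compLinearMap_assoc, vol_comp]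
    have h5 : LinearMap.det (fderiv ℂ (rep (chartAt (Cm ν) a.2) (chartAt (Cm ν) b.2) (D.h γ))
        (chartAt (Cm ν) a.2 (C.q a x))).toLinearMap = C.LB.g a b x := by
      show _ = C.tr a b x
      rw [C.tr_eq h]
      show _ = (jm (rep (chartAt (Cm ν) a.2) (chartAt (Cm ν) b.2) (D.h γ))
        (chartAt (Cm ν) a.2 (C.q a x))).det
      rw [← LinearMap.det_toMatrix']
      congr 1
      ext i j
      rw [QN.jm_apply (rep_diff D (C.at_q ha) (at_hq hb h)), LinearMap.toMatrix'_apply]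
      rfl
    rw [h5]
    rfl

end Cov

end Vale.Agent.P284.H248
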