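import Mathlib.Analysis.Calculus.FDeriv.Pow
import Mathlib.Analysis.Calculus.FDeriv.Mul
import Mathlib.Analysis.Calculus.FDeriv.Add
import Mathlib.Analysis.Complex.Basic
import Mathlib.Data.Nat.Factorial.Basic
import Mathlib.LinearAlgebra.Dimension.Constructions
import Mathlib.LinearAlgebra.FiniteDimensional.Lemmas

/-!
# The differentials of the coefficients of a polynomial span the differentials of its roots
-/

open scoped Topology
open Filter Set Finset

noncomputable section

namespace Vale.Agent.P284.H248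

variable {E : Type*} [NormedAddCommGroup E] [NormedSpace ℂ E]

/-- the `k`-th derivative of the polynomial `∑ b_j T^j` at `T = f` -/
def Qk (N : ℕ) (b : ℕ → E → ℂ) (f : E → ℂ) (k : ℕ) (z : E) : ℂ :=
  ∑ j ∈ range (N + 1), ((j.descFactorial k : ℕ) : ℂ) * b j z * f z ^ (j - k)

theorem hasFDerivAt_Qk {N : ℕ} {b : ℕ → E → ℂ} {f : E → ℂ} {z : E}
    (hb : ∀ j, DifferentiableAt ℂ (b j) z) (hf : DifferentiableAt ℂ f z) (k : ℕ) :
    HasFDerivAt (Qk N b f k)
      ((∑ j ∈ range (N + 1), (((j.descFactorial k : ℕ) : ℂ) * f z ^ (j - k)) • fderiv ℂ (b j) z) +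
        Qk N b f (k + 1) z • fderiv ℂ f z) z := by
  have h1 : ∀ j ∈ range (N + 1), HasFDerivAt
      (fun z => ((j.descFactorial k : ℕ) : ℂ) * b j z * f z ^ (j - k))
      ((((j.descFactorial k : ℕ) : ℂ) * f z ^ (j - k)) • fderiv ℂ (b j) z +
        (((j.descFactorial (k + 1) : ℕ) : ℂ) * b j z * f z ^ (j - (k + 1))) • fderiv ℂ f z) z := by
    intro j _
    have hb' := (hb j).hasFDerivAt
    have hf' := hf.hasFDerivAt
    have h := (hb'.const_mul ((j.descFactorial k : ℕ) : ℂ)).mul (hf'.pow (j - k))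
    refine h.congr_fderiv ?_
    have e1 : ((j.descFactorial (k + 1) : ℕ) : ℂ) =
        ((j - k : ℕ) : ℂ) * ((j.descFactorial k : ℕ) : ℂ) := by
      rw [Nat.descFactorial_succ]; push_cast; ring
    have e2 : j - (k + 1) = j - k - 1 := by omega
    rw [e1, e2]
    ext v
    simp only [add_apply, smul_apply, smul_eq_mul, nsmul_eq_mul]
    ring
  have h2 := HasFDerivAt.fun_sum h1
  refine h2.congr_fderiv ?_
  rw [Finset.sum_add_distrib, Qk]
  congr 1
  ext v
  simp [Finset.sum_mul]

theorem continuousOn_Qk {N : ℕ} {b : ℕ → E → ℂ} {f : E → ℂ} {W : Set E}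
    (hb : ∀ j, DifferentiableOn ℂ (b j) W) (hf : DifferentiableOn ℂ f W) (k : ℕ) :
    ContinuousOn (Qk N b f k) W := by
  unfold Qk
  refine continuousOn_finsetSum _ fun j _ => ?_
  exact (continuousOn_const.mul (hb j).continuousOn).mul (hf.continuousOn.pow _)

/-- If `f` is a root of the monic polynomial with coefficients `b_j` then on a nonempty open subset `df`
is a linear combination of the `db_j`. -/
theorem exists_mem_span {N : ℕ} {b : ℕ → E → ℂ} {f : E → ℂ} {W : Set E} (hW : IsOpen W)
    (hne : W.Nonempty) (hb : ∀ j, DifferentiableOn ℂ (b j) W) (hf : DifferentiableOn ℂ f W)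
    (hbN : ∀ z ∈ W, b N z = 1)
    (h0 : ∀ z ∈ W, Qk N b f 0 z = 0) :
    ∃ W' ⊆ W, IsOpen W' ∧ W'.Nonempty ∧ ∀ z ∈ W', fderiv ℂ f z ∈
      Submodule.span ℂ (Set.range fun j : Fin (N + 1) => fderiv ℂ (b j) z) := by
  have key : ∀ k : ℕ, (∃ W' ⊆ W, IsOpen W' ∧ W'.Nonempty ∧ ∀ z ∈ W', fderiv ℂ f z ∈
      Submodule.span ℂ (Set.range fun j : Fin (N + 1) => fderiv ℂ (b j) z)) ∨
      (∃ W' ⊆ W, IsOpen W' ∧ W'.Nonempty ∧ ∀ z ∈ W', Qk N b f k z = 0) := by
    intro k
    induction k with
    | zero => exact Or.inr ⟨W, subset_rfl, hW, hne, h0⟩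
    | succ k ih =>
      rcases ih with h | ⟨W', hW'W, hW', hne', hQ⟩
      · exact Or.inl h
      · by_cases hz : ∀ z ∈ W', Qk N b f (k + 1) z = 0
        · exact Or.inr ⟨W', hW'W, hW', hne', hz⟩
        · push Not at hz
          obtain ⟨z₁, hz₁, hq⟩ := hz
          refine Or.inl ⟨W' ∩ {z | Qk N b f (k + 1) z ≠ 0}, fun z hz => hW'W hz.1, ?_,
            ⟨z₁, hz₁, hq⟩, ?_⟩
          · have hc : ContinuousOn (Qk N b f (k + 1)) W' :=
              (continuousOn_Qk hb hf (k + 1)).mono hW'W
            exact hc.isOpen_inter_preimage hW' isOpen_compl_singleton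
          · rintro z ⟨hz, hq'⟩
            have hWz : W ∈ 𝓝 z := hW.mem_nhds (hW'W hz)
            have hd := hasFDerivAt_Qk (N := N) (k := k) (fun j => (hb j).differentiableAt hWz)
              (hf.differentiableAt hWz)
            have hd0 : HasFDerivAt (Qk N b f k) (0 : E →L[ℂ] ℂ) z := by
              refine (hasFDerivAt_const (0 : ℂ) z).congr_of_eventuallyEq ?_
              filter_upwards [hW'.mem_nhds hz] with y hy using hQ y hy
            have he := hd.unique hd0
            have : fderiv ℂ f z = -(Qk N b f (k + 1) z)⁻¹ • (∑ j ∈ range (N + 1),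
                (((j.descFactorial k : ℕ) : ℂ) * f z ^ (j - k)) • fderiv ℂ (b j) z) := by
              have h3 : (∑ j ∈ range (N + 1), (((j.descFactorial k : ℕ) : ℂ) * f z ^ (j - k)) •
                  fderiv ℂ (b j) z) = -(Qk N b f (k + 1) z • fderiv ℂ f z) :=
                eq_neg_of_add_eq_zero_left he
              rw [h3, smul_neg, neg_smul, neg_neg, smul_smul, inv_mul_cancel₀ hq', one_smul]
            rw [this]
            refine Submodule.smul_mem _ _ (Submodule.sum_mem _ fun j hj => ?_)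
            refine Submodule.smul_mem _ _ (Submodule.subset_span ⟨⟨j, ?_⟩, rfl⟩)
            exact Finset.mem_range.1 hj
  rcases key N with h | ⟨W', hWW, _, ⟨z, hz⟩, hQ⟩
  · exact h
  · exfalso
    have h := hQ z hz
    unfold Qk at h
    rw [Finset.sum_eq_single N] at h
    · rw [hbN z (hWW hz)] at h
      simp only [Nat.descFactorial_self, mul_one, Nat.sub_self, pow_zero, Nat.cast_eq_zero] at h
      exact Nat.factorial_ne_zero N h
    · intro j hj hjN
      have : j < N := lt_of_le_of_ne (Nat.lt_succ_iff.1 (Finset.mem_range.1 hj)) hjN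
      rw [Nat.descFactorial_of_lt this]
      simp
    · intro h'
      exact absurd (Finset.mem_range.2 (Nat.lt_succ_self N)) h'

/-- Several roots: on a nonempty open subset all the `df_i` are linear combinations of the `db_{ij}`. -/
theorem exists_mem_span_family {ν N : ℕ} {b : Fin ν → ℕ → E → ℂ} {f : Fin ν → E → ℂ} {W : Set E}
    (hW : IsOpen W) (hne : W.Nonempty) (hb : ∀ i j, DifferentiableOn ℂ (b i j) W)
    (hf : ∀ i, DifferentiableOn ℂ (f i) W) (hbN : ∀ i, ∀ z ∈ W, b i N z = 1)
    (h0 : ∀ i, ∀ z ∈ W, Qk N (b i) (f i) 0 z = 0) :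
    ∃ W' ⊆ W, IsOpen W' ∧ W'.Nonempty ∧ ∀ z ∈ W', ∀ i, fderiv ℂ (f i) z ∈
      Submodule.span ℂ (Set.range fun j : Fin (N + 1) => fderiv ℂ (b i j) z) := by
  have key : ∀ s : Finset (Fin ν), ∃ W' ⊆ W, IsOpen W' ∧ W'.Nonempty ∧ ∀ z ∈ W', ∀ i ∈ s,
      fderiv ℂ (f i) z ∈ Submodule.span ℂ (Set.range fun j : Fin (N + 1) => fderiv ℂ (b i j) z) := by
    intro s
    induction s using Finset.induction_on with
    | empty => exact ⟨W, subset_rfl, hW, hne, by simp⟩
    | insert i s _ ih =>
      obtain ⟨W₁, h1, h2, h3, h4⟩ := ih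
      obtain ⟨W₂, g1, g2, g3, g4⟩ := exists_mem_span (b := b i) (f := f i) h2 h3
        (fun j => (hb i j).mono h1) ((hf i).mono h1) (fun z hz => hbN i z (h1 hz))
        (fun z hz => h0 i z (h1 hz))
      refine ⟨W₂, g1.trans h1, g2, g3, fun z hz i' hi' => ?_⟩
      rcases Finset.mem_insert.1 hi' with rfl | h
      · exact g4 z hz
      · exact h4 z (g1 hz) i' h
  obtain ⟨W', h1, h2, h3, h4⟩ := key Finset.univ
  exact ⟨W', h1, h2, h3, fun z hz i => h4 z hz i (Finset.mem_univ i)⟩

/-- choose a linearly independent subfamily of the right cardinality -/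
theorem exists_linInd_of_span {F : Type*} [AddCommGroup F] [Module ℂ F] {ν : ℕ} {J : Type*}
    {u : Fin ν → F} (hu : LinearIndependent ℂ u) (d : J → F)
    (hd : ∀ i, u i ∈ Submodule.span ℂ (Set.range d)) [Finite J] :
    ∃ idx : Fin ν → J, LinearIndependent ℂ fun a => d (idx a) := by
  classical
  obtain ⟨B, hBs, hBspan, hBli⟩ := exists_linearIndependent ℂ (Set.range d)
  have hBfin : B.Finite := (Set.finite_range d).subset hBs
  have : Fintype B := hBfin.fintype
  have : FiniteDimensional ℂ (Submodule.span ℂ (Set.range d)) :=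
    FiniteDimensional.span_of_finite ℂ (Set.finite_range d)
  have hcard : Fintype.card B = Module.finrank ℂ (Submodule.span ℂ (Set.range d)) := by
    rw [← hBspan, ← finrank_span_eq_card hBli]
    rw [Subtype.range_coe]
  have hle : ν ≤ Fintype.card B := by
    rw [hcard]
    let u' : Fin ν → Submodule.span ℂ (Set.range d) := fun i => ⟨u i, hd i⟩
    have hu' : LinearIndependent ℂ u' := by
      refine LinearIndependent.of_comp (Submodule.subtype _) ?_
      exact hu
    simpa using hu'.fintype_card_le_finrank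
  let em : Fin ν ↪ B := (Fin.castLEEmb hle).trans (Fintype.equivFin B).symm.toEmbedding
  choose c hc using fun x : B => hBs x.2
  refine ⟨fun a => c (em a), ?_⟩
  have : (fun a => d (c (em a))) = (fun x : B => (x : F)) ∘ em := by
    funext a
    exact hc (em a)
  rw [this]
  exact hBli.comp em em.injective

end Vale.Agent.P284.H248
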