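import Vale.Agent.P284.H248.Ident
import Vale.Agent.P284.H248.Rank
import Vale.Agent.P284.H248.Rep
import Vale.Agent.P285.H766.Quo
import Mathlib.GroupTheory.Index
import Mathlib.Algebra.Polynomial.BigOperators
import Mathlib.Algebra.Polynomial.Eval.Degree

/-!
# P284: symmetric functions of the translates of a section which is invariant under a normal subgroup
of finite index
-/

open scoped Manifold ContDiff Topology
open Filter Set
open Vale.Agent.P272.K Vale.Agent.P272.KOD Vale.Agent.P285.H281 Vale.Agent.P285.H766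
open Vale.Agent.P272.K.QN (jm)

noncomputable section

namespace Vale.Agent.P284.H248

variable {V : Type} [NormedAddCommGroup V] [InnerProductSpace ℂ V] {ν : ℕ} {Y : Type}
  [TopologicalSpace Y] [ChartedSpace (Cm ν) Y] [IsManifold 𝓘(ℂ, Cm ν) ω Y]
  {Γ : Type} [Group Γ] (D : Dat V ν Y Γ)

/-- translate of a section -/
def tw {m : ℕ} (γ : Γ) (s : PSec ν m Y) : PSec ν m Y :=
  pullS (D.h γ) (holIso_contMDiff (D.iso γ)) s

variable {D} {m : ℕ} {γ δ : Γ} {s : PSec ν m Y} {e e' : Chart ν Y} {y : Y}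

theorem tw_coeff (h : At e y) (h' : At e' (D.h γ y)) :
    (tw D γ s).coeff e (e y) = s.coeff e' (e' (D.h γ y)) * (jm (rep e e' (D.h γ)) (e y)).det ^ m :=
  pullC_eq s (holIso_contMDiff (D.iso γ)).contMDiffAt h h'

theorem tw_mul (h : At e y) (h' : At e' (D.h δ y)) :
    (tw D γ s).coeff e' (e' (D.h δ y)) * (jm (rep e e' (D.h δ)) (e y)).det ^ m =
      (tw D (γ * δ) s).coeff e (e y) := by
  have hc := at_chart (n := ν) (D.h γ (D.h δ y))
  have hc' : At (chartAt (Cm ν) (D.h γ (D.h δ y))) (D.h (γ * δ) y) := by rw [D.h_mul]; exact hc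
  rw [tw_coeff h' hc, tw_coeff h hc', jm_rep_comp D h h' hc, Matrix.det_mul, D.h_mul]
  ring

theorem tw_inv_eq (hs : PInv (D.h γ) s) (h : At e y) : (tw D γ s).coeff e (e y) = s.coeff e (e y) := by
  have hc := at_chart (n := ν) (D.h γ y)
  rw [tw_coeff h hc]
  exact (hs _ _ y h hc).symm

theorem tw_left {κ : Γ} (hs : PInv (D.h κ) s) (h : At e y) :
    (tw D (κ * γ) s).coeff e (e y) = (tw D γ s).coeff e (e y) := by
  have hc := at_chart (n := ν) (D.h γ y)
  rw [← tw_mul h hc, tw_inv_eq hs hc, tw_coeff h hc]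

/-- the section is not identically zero: neither is its translate -/
theorem tw_ne_zero {e₀ : Chart ν Y} {y₀ : Y} (h₀ : At e₀ y₀) (hs : s.coeff e₀ (e₀ y₀) ≠ 0) :
    ∃ y, ∀ e, At e y → (tw D γ s).coeff e (e y) ≠ 0 := by
  refine ⟨D.h γ⁻¹ y₀, fun e he => ?_⟩
  have h1 : D.h γ (D.h γ⁻¹ y₀) = y₀ := by rw [← D.h_mul, mul_inv_cancel, D.h_one]
  have h2 : At e₀ (D.h γ (D.h γ⁻¹ y₀)) := by rw [h1]; exact h₀
  rw [tw_coeff he h2, h1]
  exact mul_ne_zero hs (pow_ne_zero _ (det_rep_ne_zero D he h2))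

open Polynomial in
/-- the polynomial `∏_c (a_c T - b_c)` -/
def pol {ι : Type*} (S : Finset ι) (a b : ι → ℂ) : ℂ[X] := ∏ c ∈ S, (C (a c) * X - C (b c))

open Polynomial in
theorem pol_natDegree {ι : Type*} (S : Finset ι) (a b : ι → ℂ) : (pol S a b).natDegree ≤ S.card := by
  refine (natDegree_prod_le _ _).trans ?_
  refine (Finset.sum_le_card_nsmul S _ 1 fun c _ => ?_).trans (by simp)
  refine (natDegree_sub_le _ _).trans ?_
  refine max_le ((natDegree_C_mul_le _ _).trans natDegree_X_le) ?_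
  simp

open Polynomial in
theorem pol_lead {ι : Type*} (S : Finset ι) (a b : ι → ℂ) :
    (pol S a b).coeff S.card = ∏ c ∈ S, a c := by
  have h := coeff_prod_of_natDegree_le (s := S) (fun c => C (a c) * X - C (b c)) 1 (fun c _ => ?_)
  · rw [mul_one] at h
    rw [pol, h]
    refine Finset.prod_congr rfl fun c _ => ?_
    rw [coeff_sub, coeff_C_mul, coeff_X_one, coeff_C, if_neg one_ne_zero, mul_one, sub_zero]
  · refine (natDegree_sub_le _ _).trans ?_
    refine max_le ((natDegree_C_mul_le _ _).trans natDegree_X_le) ?_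
    simp

open Polynomial in
theorem pol_eval {ι : Type*} {S : Finset ι} {a b : ι → ℂ} {f : ℂ} {c : ι} (hc : c ∈ S)
    (h : a c * f - b c = 0) : ∑ j ∈ Finset.range (S.card + 1), (pol S a b).coeff j * f ^ j = 0 := by
  rw [← eval_eq_sum_range' (Nat.lt_succ_of_le (pol_natDegree S a b)), pol, eval_prod]
  refine Finset.prod_eq_zero hc ?_
  simpa using h

open Polynomial in
theorem pol_smul {ι : Type*} (S : Finset ι) (a b : ι → ℂ) (l : ℂ) (j : ℕ) :
    (pol S (fun c => a c * l) (fun c => b c * l)).coeff j = (pol S a b).coeff j * l ^ S.card := by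
  have h : pol S (fun c => a c * l) (fun c => b c * l) = C (l ^ S.card) * pol S a b := by
    rw [pol, pol, C_pow, ← Finset.prod_const, ← Finset.prod_mul_distrib]
    refine Finset.prod_congr rfl fun c _ => ?_
    rw [C_mul, C_mul]
    ring
  rw [h, coeff_C_mul, mul_comm]

open Polynomial in
theorem pol_analytic {ι E : Type*} [NormedAddCommGroup E] [NormedSpace ℂ E] [DecidableEq ι]
    {a b : ι → E → ℂ} {z : E}
    (ha : ∀ c, AnalyticAt ℂ (a c) z) (hb : ∀ c, AnalyticAt ℂ (b c) z) (S : Finset ι) : ∀ j : ℕ,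
    AnalyticAt ℂ (fun y => (pol S (fun c => a c y) (fun c => b c y)).coeff j) z := by
  induction S using Finset.induction_on with
  | empty =>
    intro j
    simp only [pol, Finset.prod_empty]
    exact analyticAt_const
  | insert c S hc ih =>
    intro j
    have h1 : (fun y => (pol (insert c S) (fun c => a c y) (fun c => b c y)).coeff j) = fun y =>
        (if j = 0 then 0 else a c y * (pol S (fun c => a c y) (fun c => b c y)).coeff (j - 1)) -
          b c y * (pol S (fun c => a c y) (fun c => b c y)).coeff j := by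
      funext y
      rw [pol, Finset.prod_insert hc, sub_mul, coeff_sub, coeff_C_mul]
      congr 1
      rcases j with _ | j
      · rw [if_pos rfl, mul_assoc, coeff_C_mul, mul_comm X, coeff_mul_X_zero, mul_zero]
      · rw [if_neg (Nat.succ_ne_zero j), mul_assoc, coeff_C_mul, mul_comm X, coeff_mul_X]
        rfl
    rw [h1]
    refine AnalyticAt.sub ?_ ((hb c).mul (ih j))
    by_cases hj : j = 0
    · simp only [hj, if_true]
      exact analyticAt_const
    · simp only [hj, if_false]
      exact (ha c).mul (ih (j - 1))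

section sym

variable (D) {K : Subgroup Γ} [K.Normal] [K.FiniteIndex]

open Classical in
/-- the symmetric functions of the translates of `t / s` times the norm of `s` -/
def sym (K : Subgroup Γ) [K.FiniteIndex] (s t : PSec ν m Y) (j : ℕ) :
    PSec ν (m * Nat.card (Γ ⧸ K)) Y :=
  letI : Fintype (Γ ⧸ K) := Fintype.ofFinite _
  { coeff := fun e z => (pol Finset.univ (fun c : Γ ⧸ K => (tw D (Quotient.out c) s).coeff e z)
      (fun c : Γ ⧸ K => (tw D (Quotient.out c) t).coeff e z)).coeff j
    holo := fun e x h => pol_analytic (fun c => (tw D (Quotient.out c) s).holo e x h)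
      (fun c => (tw D (Quotient.out c) t).holo e x h) _ _
    change := fun e e' x h h' => by
      have h1 : ∀ c : Γ ⧸ K, (tw D (Quotient.out c) s).coeff e (e x) =
        (tw D (Quotient.out c) s).coeff e' (e' x) * (jacM e e' x).det ^ m := fun c =>
        (tw D (Quotient.out c) s).change e e' x h h'
      have h2 : ∀ c : Γ ⧸ K, (tw D (Quotient.out c) t).coeff e (e x) =
        (tw D (Quotient.out c) t).coeff e' (e' x) * (jacM e e' x).det ^ m := fun c =>
        (tw D (Quotient.out c) t).change e e' x h h'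
      simp only [h1, h2]
      rw [pol_smul, pow_mul, Finset.card_univ, Nat.card_eq_fintype_card] }

variable {D}

theorem mk_out_mul (γ : Γ) (c : Γ ⧸ K) : ∃ κ ∈ K,
    Quotient.out c * γ = κ * Quotient.out (c * (γ : Γ ⧸ K)) := by
  refine ⟨Quotient.out c * γ * (Quotient.out (c * (γ : Γ ⧸ K)))⁻¹, ?_, by group⟩
  rw [← QuotientGroup.eq_one_iff]
  rw [QuotientGroup.mk_mul, QuotientGroup.mk_mul, QuotientGroup.mk_inv]
  rw [QuotientGroup.out_eq', QuotientGroup.out_eq', mul_inv_cancel]

theorem sym_inv {t : PSec ν m Y} (hs : ∀ κ ∈ K, PInv (D.h κ) s) (ht : ∀ κ ∈ K, PInv (D.h κ) t)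
    (j : ℕ) (γ : Γ) : PInv (D.h γ) (sym D K s t j) := by
  classical
  intro e e' y h h'
  letI : Fintype (Γ ⧸ K) := Fintype.ofFinite _
  have key : ∀ (u : PSec ν m Y), (∀ κ ∈ K, PInv (D.h κ) u) → ∀ c : Γ ⧸ K,
      (tw D (Quotient.out c) u).coeff e' (e' (D.h γ y)) * (jm (rep e e' (D.h γ)) (e y)).det ^ m =
      (tw D (Quotient.out (c * (γ : Γ ⧸ K))) u).coeff e (e y) := by
    intro u hu c
    obtain ⟨κ, hκ, hκ'⟩ := mk_out_mul γ c
    rw [tw_mul h h', hκ', tw_left (hu κ hκ) h]
  show (pol Finset.univ _ _).coeff j = (pol Finset.univ _ _).coeff j * _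
  rw [pow_mul, Nat.card_eq_fintype_card, ← Finset.card_univ, ← pol_smul]
  simp only [key s hs, key t ht]
  congr 1
  rw [pol, pol]
  exact (Fintype.prod_equiv (Equiv.mulRight (γ : Γ ⧸ K)) _ _ fun c => rfl).symm

end sym

end Vale.Agent.P284.H248
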