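import Vale.Agent.P284.H248.Sec
import Vale.Agent.P284.H248.Sym

/-!
# P284: `κ(L) ≥ ν`
-/

open scoped Manifold ContDiff Topology
open Filter Set
open Vale.Agent.P272.K Vale.Agent.P272.KOD Vale.Agent.P285.H281 Vale.Agent.P285.H766
open Vale.Agent.P272.K.QN (jm)

noncomputable section

namespace Vale.Agent.P284.H248

variable {V : Type} [NormedAddCommGroup V] [InnerProductSpace ℂ V] {ν : ℕ} {Y : Type}
  [TopologicalSpace Y] [ChartedSpace (Cm ν) Y] [IsManifold 𝓘(ℂ, Cm ν) ω Y]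
  {Γ : Type} [Group Γ] {D : Dat V ν Y Γ}
  {n : ℕ} {X : Type} [TopologicalSpace X] [ChartedSpace (Cm n) X]

/-- a coefficient function is analytic on the target of the chart -/
theorem coeff_analytic {m : ℕ} (s : PSec ν m Y) {c : Chart ν Y} (hc : c ∈ atlas (Cm ν) Y)
    {w : Cm ν} (hw : w ∈ c.target) : AnalyticAt ℂ (s.coeff c) w := by
  have h := s.holo c (c.symm w) (At.of_target hc hw)
  rwa [c.right_inv hw] at h

/-- shrink an open set so that finitely many nonzero sections have no zeros -/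
theorem shrink [ConnectedSpace Y] {ι : Type*} {m : ℕ} (t : ι → PSec ν m Y)
    (ht : ∀ i, ∃ y, ∀ e, At e y → (t i).coeff e (e y) ≠ 0) {c : Chart ν Y}
    (hc : c ∈ atlas (Cm ν) Y) {W : Set (Cm ν)} (hW : IsOpen W) (hne : W.Nonempty)
    (hWc : W ⊆ c.target) (S : Finset ι) :
    ∃ W' ⊆ W, IsOpen W' ∧ W'.Nonempty ∧ ∀ i ∈ S, ∀ w ∈ W', (t i).coeff c w ≠ 0 := by
  classical
  induction S using Finset.induction_on with
  | empty => exact ⟨W, subset_rfl, hW, hne, by simp⟩
  | insert i S _ ih =>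
    obtain ⟨W₁, h1, h2, h3, h4⟩ := ih
    by_cases hz : ∀ w ∈ W₁, (t i).coeff c w = 0
    · exfalso
      obtain ⟨w, hw⟩ := h3
      have hwt := hWc (h1 hw)
      have hA : At c (c.symm w) := At.of_target hc hwt
      obtain ⟨y, hy⟩ := ht i
      refine hy _ (at_chart y) (ident (t i) (e₁ := c) (y₁ := c.symm w) hA ?_ (at_chart y))
      rw [c.right_inv hwt]
      filter_upwards [h2.mem_nhds hw] with w' hw' using hz w' hw'
    · push Not at hz
      obtain ⟨w, hw, hw0⟩ := hz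
      refine ⟨W₁ ∩ {w | (t i).coeff c w ≠ 0}, fun w hw => h1 hw.1, ?_, ⟨w, hw, hw0⟩, ?_⟩
      · have hcont : ContinuousOn ((t i).coeff c) W₁ := fun w hw =>
          (coeff_analytic (t i) hc (hWc (h1 hw))).continuousAt.continuousWithinAt
        exact hcont.isOpen_inter_preimage h2 isOpen_compl_singleton
      · intro j hj w hw
        rcases Finset.mem_insert.1 hj with rfl | h
        · exact hw.2
        · exact h4 j h w hw.1

theorem linInd_of_det {f : Fin ν → Cm ν → ℂ} {w : Cm ν} (hf : ∀ i, DifferentiableAt ℂ (f i) w)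
    (h : (Matrix.of fun i j : Fin ν => dz j (f i) w).det ≠ 0) :
    LinearIndependent ℂ fun i => fderiv ℂ (f i) w := by
  rw [Fintype.linearIndependent_iff]
  intro g hg
  have h1 : Matrix.vecMul g (Matrix.of fun i j : Fin ν => dz j (f i) w) = 0 := by
    funext j
    have h2 := congrArg (fun φ : Cm ν →L[ℂ] ℂ => φ (Pi.single j 1)) hg
    simp only [sum_apply, smul_apply, smul_eq_mul, zero_apply] at h2
    simp only [Matrix.vecMul, dotProduct, Matrix.of_apply, Pi.zero_apply]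
    rw [← h2]
    refine Finset.sum_congr rfl fun i _ => ?_
    rw [dz_of_holo (hf i)]
  exact fun i => congrFun (Matrix.eq_zero_of_vecMul_eq_zero h h1) i

variable (C : Cov D n X)

/-- `κ(L) ≥ ν` -/
theorem Cov.lower [ConnectedSpace Y] {K : Subgroup Γ} [K.Normal] [K.FiniteIndex] {m : ℕ}
    (hm : 1 ≤ m) (s : Fin (ν + 1) → PSec ν m Y) (hs : ∀ i, ∀ κ ∈ K, PInv (D.h κ) (s i)) (y₀ : Y)
    (hj : ∀ e : Chart ν Y, At e y₀ → (s 0).coeff e (e y₀) ≠ 0 ∧ (Matrix.of fun i j : Fin ν =>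
        dz j (fun z => (s i.succ).coeff e z / (s 0).coeff e z) (e y₀)).det ≠ 0) :
    IitakaGE C.LB ν := by
  classical
  set a : V × Y := (0, y₀) with ha
  set c : Chart ν Y := chartAt (Cm ν) y₀ with hc
  have hcy : At c y₀ := at_chart y₀
  have hca : c ∈ atlas (Cm ν) Y := hcy.1
  obtain ⟨h0, hdet⟩ := hj c hcy
  set N := Nat.card (Γ ⧸ K) with hN
  have hN1 : 1 ≤ N := Nat.card_pos
  letI : Fintype (Γ ⧸ K) := Fintype.ofFinite _
  have hNc : (Finset.univ : Finset (Γ ⧸ K)).card = N := by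
    rw [Finset.card_univ, hN, Nat.card_eq_fintype_card]
  -- the functions
  set f : Fin ν → Cm ν → ℂ := fun i w => (s i.succ).coeff c w / (s 0).coeff c w with hf
  set F₀ : PSec ν (m * N) Y := sym D K (s 0) (s 0) N with hF₀
  set F : Fin ν → ℕ → PSec ν (m * N) Y := fun i j => sym D K (s 0) (s i.succ) j with hF
  set b : Fin ν → ℕ → Cm ν → ℂ := fun i j w => (F i j).coeff c w / F₀.coeff c w with hb
  have hlead : ∀ (t : PSec ν m Y) w, (sym D K (s 0) t N).coeff c w =
      ∏ q : Γ ⧸ K, (tw D (Quotient.out q) (s 0)).coeff c w := by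
    intro t w
    have := pol_lead (Finset.univ : Finset (Γ ⧸ K))
      (fun q => (tw D (Quotient.out q) (s 0)).coeff c w)
      (fun q => (tw D (Quotient.out q) t).coeff c w)
    rw [hNc] at this
    exact this
  -- first open set
  have hfan : ∀ w ∈ c.target, (s 0).coeff c w ≠ 0 → ∀ i, ContDiffAt ℂ ω (f i) w :=
    fun w hw hw0 i => (coeff_analytic (s i.succ) hca hw).contDiffAt.div
      (coeff_analytic (s 0) hca hw).contDiffAt hw0
  have hW1 : ∀ᶠ w in 𝓝 (c y₀), (w ∈ c.target ∧ ((0 : V), c.symm w) ∈ (C.loc a).source) ∧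
      (s 0).coeff c w ≠ 0 ∧ (Matrix.of fun i j : Fin ν => dz j (f i) w).det ≠ 0 := by
    have e1 : ∀ᶠ w in 𝓝 (c y₀), ((0 : V), c.symm w) ∈ (C.loc a).source := by
      have h1 : ContinuousAt (fun w => ((0 : V), c.symm w)) (c y₀) :=
        continuousAt_const.prodMk (c.continuousAt_symm hcy.mem_target)
      refine h1.eventually ((C.loc a).open_source.mem_nhds ?_)
      simp only [hcy.left_inv]
      exact C.mem_loc a
    have e2 : ∀ᶠ w in 𝓝 (c y₀), (s 0).coeff c w ≠ 0 :=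
      (coeff_analytic (s 0) hca hcy.mem_target).continuousAt.eventually_ne h0
    have e3 : ∀ᶠ w in 𝓝 (c y₀), (Matrix.of fun i j : Fin ν => dz j (f i) w).det ≠ 0 := by
      have h1 : ContDiffAt ℂ ω (fun w => fun i => f i w) (c y₀) :=
        contDiffAt_pi.2 fun i => hfan _ hcy.mem_target h0 i
      have h2 : ContDiffAt ℂ ω (fun w => (jm (fun w => fun i => f i w) w).det) (c y₀) :=
        P285.H266.cd_det fun i j => QN.jm_holo h1 i j
      exact h2.continuousAt.eventually_ne hdet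
    filter_upwards [e1, e2, e3, hcy.nhds_target] with w g1 g2 g3 g4
    exact ⟨⟨g4, g1⟩, g2, g3⟩
  obtain ⟨W₁, hW₁, hW₁o, hW₁y⟩ := eventually_nhds_iff.1 hW1
  -- second open set: the translates have no zeros
  obtain ⟨W₂, hW₂, hW₂o, hW₂n, hW₂t⟩ := shrink (t := fun q : Γ ⧸ K => tw D (Quotient.out q) (s 0))
    (fun q => tw_ne_zero hcy h0) hca hW₁o ⟨_, hW₁y⟩ (fun w hw => (hW₁ w hw).1.1) Finset.univ
  have hF₀ne : ∀ w ∈ W₂, F₀.coeff c w ≠ 0 := by
    intro w hw
    rw [hF₀, hlead]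
    exact Finset.prod_ne_zero_iff.2 fun q _ => hW₂t q (Finset.mem_univ q) w hw
  have hW₂t' : ∀ w ∈ W₂, w ∈ c.target := fun w hw => (hW₁ w (hW₂ hw)).1.1
  have hs0 : ∀ w ∈ W₂, (s 0).coeff c w ≠ 0 := fun w hw => (hW₁ w (hW₂ hw)).2.1
  have hfd : ∀ i, DifferentiableOn ℂ (f i) W₂ := fun i w hw =>
    ((hfan w (hW₂t' w hw) (hs0 w hw) i).differentiableAt (by simp)).differentiableWithinAt
  have hban : ∀ i j, ∀ w ∈ W₂, ContDiffAt ℂ ω (b i j) w := fun i j w hw =>
    (coeff_analytic (F i j) hca (hW₂t' w hw)).contDiffAt.div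
      (coeff_analytic F₀ hca (hW₂t' w hw)).contDiffAt (hF₀ne w hw)
  have hbd : ∀ i j, DifferentiableOn ℂ (b i j) W₂ := fun i j w hw =>
    ((hban i j w hw).differentiableAt (by simp)).differentiableWithinAt
  have hbN : ∀ i, ∀ w ∈ W₂, b i N w = 1 := by
    intro i w hw
    have h1 : (F i N).coeff c w = F₀.coeff c w := (hlead (s i.succ) w).trans (hlead (s 0) w).symm
    rw [hb]
    simp only [h1]
    exact div_self (hF₀ne w hw)
  have hroot : ∀ i, ∀ w ∈ W₂, Qk N (b i) (f i) 0 w = 0 := by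
    intro i w hw
    have hA : At c (c.symm w) := At.of_target hca (hW₂t' w hw)
    have hout : Quotient.out ((1 : Γ) : Γ ⧸ K) ∈ K := by
      rw [← QuotientGroup.eq_one_iff, QuotientGroup.out_eq', QuotientGroup.mk_one]
    have h1 : ∀ j, (tw D (Quotient.out ((1 : Γ) : Γ ⧸ K)) (s j)).coeff c w = (s j).coeff c w := by
      intro j
      have := tw_inv_eq (e := c) (y := c.symm w) (hs j _ hout) hA
      rwa [c.right_inv (hW₂t' w hw)] at this
    have h2 := pol_eval (S := (Finset.univ : Finset (Γ ⧸ K)))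
      (a := fun q => (tw D (Quotient.out q) (s 0)).coeff c w)
      (b := fun q => (tw D (Quotient.out q) (s i.succ)).coeff c w) (f := f i w)
      (c := ((1 : Γ) : Γ ⧸ K)) (Finset.mem_univ _) (by
        simp only [h1, hf]
        rw [mul_div_cancel₀ _ (hs0 w hw), sub_self])
    rw [hNc] at h2
    unfold Qk
    have h3 : ∀ j ∈ Finset.range (N + 1), ((j.descFactorial 0 : ℕ) : ℂ) * b i j w * f i w ^ (j - 0) =
        (F₀.coeff c w)⁻¹ * ((F i j).coeff c w * f i w ^ j) := by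
      intro j _
      simp only [hb, Nat.descFactorial_zero, Nat.cast_one, one_mul, Nat.sub_zero]
      rw [div_eq_mul_inv]
      ring
    rw [Finset.sum_congr rfl h3, ← Finset.mul_sum]
    have h4 : ∑ j ∈ Finset.range (N + 1), (F i j).coeff c w * f i w ^ j = 0 := h2
    rw [h4, mul_zero]
  obtain ⟨W₃, hW₃, hW₃o, ⟨w₁, hw₁⟩, hspan⟩ := exists_mem_span_family hW₂o hW₂n hbd hfd hbN hroot
  have hw₁2 := hW₃ hw₁
  have hw₁1 := hW₂ hw₁2
  have hli : LinearIndependent ℂ fun i => fderiv ℂ (f i) w₁ :=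
    linInd_of_det (fun i => (hfan w₁ (hW₂t' w₁ hw₁2) (hs0 w₁ hw₁2) i).differentiableAt (by simp))
      (hW₁ w₁ hw₁1).2.2
  obtain ⟨idx, hidx⟩ := exists_linInd_of_span (J := Fin ν × Fin (N + 1)) hli
    (fun p => fderiv ℂ (b p.1 p.2) w₁) (fun i => by
      refine Submodule.span_mono ?_ (hspan w₁ hw₁ i)
      rintro _ ⟨j, rfl⟩
      exact ⟨(i, j), rfl⟩)
  -- the point of X
  have hsrc : ((0 : V), c.symm w₁) ∈ (C.loc a).source := (hW₁ w₁ hw₁1).1.2
  have hxdom : C.p ((0 : V), c.symm w₁) ∈ C.dom a := by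
    refine ⟨?_, ?_⟩
    · have := (C.loc a).map_source hsrc
      rwa [C.loc_eq] at this
    · have h1 : (C.loc a).symm (C.p ((0 : V), c.symm w₁)) = ((0 : V), c.symm w₁) := C.σ_p hsrc
      show ((C.loc a).symm (C.p ((0 : V), c.symm w₁))).2 ∈ (chartAt (Cm ν) a.2).source
      rw [h1]
      exact c.map_target (hW₂t' w₁ hw₁2)
  have hq : C.q a (C.p ((0 : V), c.symm w₁)) = c.symm w₁ := by
    rw [Cov.q, C.σ_p hsrc]
  have hcq : c (C.q a (C.p ((0 : V), c.symm w₁))) = w₁ := by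
    rw [hq, c.right_inv (hW₂t' w₁ hw₁2)]
  let FF : Fin (ν + 1) → PSec ν (m * N) Y := Fin.cons F₀ fun k => F (idx k).1 (idx k).2
  refine Cov.iitaka_of_jet (C := C) (k := ν) (m := m * N) (Nat.mul_pos hm hN1) FF ?_ a
    (C.p ((0 : V), c.symm w₁)) hxdom ?_ ?_
  · intro i γ
    refine Fin.cases ?_ (fun k => ?_) i
    · exact sym_inv (hs 0) (hs 0) N γ
    · exact sym_inv (hs 0) (hs _) _ γ
  · show F₀.coeff c (c (C.q a (C.p ((0 : V), c.symm w₁)))) ≠ 0
    rw [hcq]
    exact hF₀ne w₁ hw₁2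
  · show LinearIndependent ℂ fun j : Fin ν => fderiv ℂ (fun w => (FF j.succ).coeff c w /
      (FF 0).coeff c w) (c (C.q a (C.p ((0 : V), c.symm w₁))))
    rw [hcq]
    exact hidx

end Vale.Agent.P284.H248
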