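import Vale.Agent.P284.H248.Sec
import Mathlib.Analysis.Complex.Liouville

/-!
# P284: `κ(L) ≤ ν`
-/

open scoped Manifold ContDiff Topology
open Filter Set
open Vale.Agent.P272.K Vale.Agent.P272.KOD Vale.Agent.P285.H281 Vale.Agent.P285.H766
open Vale.Agent.P272.K.QN (jm)

noncomputable section

namespace Vale.Agent.P284.H248

variable {V : Type} [NormedAddCommGroup V] [InnerProductSpace ℂ V] {ν : ℕ} {Y : Type}
  [TopologicalSpace Y] [ChartedSpace (Cm ν) Y] [IsManifold 𝓘(ℂ, Cm ν) ω Y]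
  {Γ : Type} [Group Γ] {D : Dat V ν Y Γ}
  {n : ℕ} {X : Type} [TopologicalSpace X] [ChartedSpace (Cm n) X] {C : Cov D n X}

namespace Cov

theorem at_chart' (y : Y) : At (chartAt (Cm ν) y) y :=
  ⟨chart_mem_atlas _ _, mem_chart_source _ _⟩

/-- the section `s` of `L^m` pulled back to `V × {y}` -/
def T {m : ℕ} (s : Sec C.LB m) (y : Y) (z : V) : ℂ := s.f (z, y) (C.p (z, y))

theorem mem_dom_of {a b : V × Y} (hb : b ∈ (C.loc a).source)
    (hb' : b.2 ∈ (chartAt (Cm ν) a.2).source) : C.p b ∈ C.dom a := by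
  refine ⟨?_, ?_⟩
  · have := (C.loc a).map_source hb
    rwa [C.loc_eq] at this
  · have h1 : (C.loc a).symm (C.p b) = b := C.σ_p hb
    show ((C.loc a).symm (C.p b)).2 ∈ (chartAt (Cm ν) a.2).source
    rwa [h1]

/-- relation of `s.f a` with `T` -/
theorem f_eq_T {m : ℕ} (s : Sec C.LB m) {a b : V × Y} (hb : b ∈ (C.loc a).source)
    (hb' : b.2 ∈ (chartAt (Cm ν) a.2).source) :
    s.f a (C.p b) = (jacM (chartAt (Cm ν) a.2) (chartAt (Cm ν) b.2) b.2).det ^ m * T s b.2 b.1 := by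
  have h1 := C.mem_dom_of hb hb'
  have h2 := C.p_mem_dom b
  have h3 : act D 1 (C.σ a (C.p b)) = C.σ b (C.p b) := by
    rw [act_one, C.σ_p hb, C.σ_p_self]
  have h4 := s.change a b (C.p b) h1 h2
  rw [h4]
  congr 2
  show C.tr a b (C.p b) = _
  rw [C.tr_eq h3]
  show (jm (rep (chartAt (Cm ν) a.2) (chartAt (Cm ν) b.2) (D.h 1))
    (chartAt (Cm ν) a.2 (C.q a (C.p b)))).det = _
  have h5 : C.q a (C.p b) = b.2 := by rw [q, C.σ_p hb]
  rw [h5, jm_rep_one D ⟨chart_mem_atlas _ _, hb'⟩ (at_chart' b.2)]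

/-- `T s y` is entire. -/
theorem T_diff {m : ℕ} (s : Sec C.LB m) (y : Y) : Differentiable ℂ (T s y) := by
  intro z₀
  set a : V × Y := (z₀, y) with ha
  set e := chartAt (Cm n) (C.p a) with he
  have hA : At e (C.p a) := ⟨chart_mem_atlas _ _, mem_chart_source _ _⟩
  have h1 : DifferentiableAt ℂ (fun z => s.f a (C.p (z, y))) z₀ := by
    have h2 : ContDiffAt ℂ ω (fun u => s.f a (e.symm u)) ((fun z => e (C.p (z, y))) z₀) :=
      s.holo a e (C.p a) hA (C.p_mem_dom a)
    have h3 : ContDiffAt ℂ ω (fun z => e (C.p (z, y))) z₀ := C.holV y z₀ e hA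
    have h4 : ContDiffAt ℂ ω (fun z => s.f a (e.symm (e (C.p (z, y))))) z₀ :=
      ContDiffAt.comp z₀ (g := fun u => s.f a (e.symm u)) h2 h3
    refine (h4.differentiableAt (by simp)).congr_of_eventuallyEq ?_
    have h5 : ContinuousAt (fun z => C.p (z, y)) z₀ :=
      (C.lh.continuous.comp (Continuous.prodMk_left y)).continuousAt
    filter_upwards [h5.eventually (e.open_source.mem_nhds hA.2)] with z hz
    rw [e.left_inv hz]
  refine h1.congr_of_eventuallyEq ?_
  have h6 : ∀ᶠ z in 𝓝 z₀, (z, y) ∈ (C.loc a).source :=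
    (Continuous.prodMk_left y).continuousAt.eventually
      ((C.loc a).open_source.mem_nhds (C.mem_loc a))
  filter_upwards [h6] with z hz
  have h7 := f_eq_T s (a := a) (b := (z, y)) hz (mem_chart_source (Cm ν) y)
  rw [h7]
  show T s y z = (jacM (chartAt (Cm ν) y) (chartAt (Cm ν) y) y).det ^ m * T s y z
  rw [jacM_self (at_chart' y), Matrix.det_one, one_pow, one_mul]

/-- `T s y` is periodic. -/
theorem T_per {m : ℕ} (s : Sec C.LB m) (y : Y) {l : Γ} (hA : D.A l = 1)
    (hl : ∀ y, D.h l y = y) (z : V) : T s y (z + D.v l) = T s y z := by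
  have hact : act D l (z, y) = (z + D.v l, y) := by
    simp only [act, hA, hl]
    rfl
  have hp : C.p (z + D.v l, y) = C.p (z, y) := by rw [← hact, C.p_act]
  have h1 : C.p (z, y) ∈ C.dom (z, y) := C.p_mem_dom _
  have h2 : C.p (z, y) ∈ C.dom (z + D.v l, y) := by
    rw [← hp]; exact C.p_mem_dom _
  have h3 : act D l (C.σ (z, y) (C.p (z, y))) = C.σ (z + D.v l, y) (C.p (z, y)) := by
    rw [C.σ_p_self, hact, ← hp, C.σ_p_self]
  have h4 := s.change (z, y) (z + D.v l, y) (C.p (z, y)) h1 h2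
  have h5 : C.LB.g (z, y) (z + D.v l, y) (C.p (z, y)) = 1 := by
    show C.tr (z, y) (z + D.v l, y) (C.p (z, y)) = 1
    rw [C.tr_eq h3]
    show (jm (rep (chartAt (Cm ν) y) (chartAt (Cm ν) y) (D.h l))
      (chartAt (Cm ν) y (C.q (z, y) (C.p (z, y))))).det = 1
    have h6 : C.q (z, y) (C.p (z, y)) = y := by rw [q, C.σ_p_self]
    rw [h6, jm_rep_id D hl (at_chart' y) (at_chart' y), jacM_self (at_chart' y), Matrix.det_one]
  rw [h5, one_pow, one_mul] at h4
  rw [T, hp, ← h4]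
  rfl

/-- `T s y` is constant. -/
theorem T_const [FiniteDimensional ℂ V] {m : ℕ} (s : Sec C.LB m) (y : Y) (L : Set Γ)
    (hL : ∀ l ∈ L, D.A l = 1 ∧ ∀ y, D.h l y = y) (R : ℝ)
    (hR : ∀ x : V, ∃ l ∈ L, ‖D.v l - x‖ ≤ R) (z w : V) : T s y z = T s y w := by
  refine Differentiable.apply_eq_apply_of_bounded (T_diff s y) ?_ z w
  have : ProperSpace V := FiniteDimensional.proper ℂ V
  have hsub : Set.range (T s y) ⊆ T s y '' Metric.closedBall 0 R := by
    rintro _ ⟨z, rfl⟩
    obtain ⟨l, hl, hlR⟩ := hR z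
    refine ⟨z - D.v l, ?_, ?_⟩
    · rw [mem_closedBall_zero_iff, ← norm_neg, neg_sub]
      exact hlR
    · have := T_per s y (hL l hl).1 (hL l hl).2 (z - D.v l)
      rw [sub_add_cancel] at this
      exact this.symm
  exact (((isCompact_closedBall (0 : V) R).image (T_diff s y).continuous).isBounded).subset hsub

theorem finrank_dual (ν : ℕ) : Module.finrank ℂ (Cm ν →L[ℂ] ℂ) = ν := by
  rw [← LinearEquiv.finrank_eq (LinearMap.toContinuousLinearMap (𝕜 := ℂ) (E := Cm ν) (F' := ℂ))]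
  rw [Module.finrank_linearMap]
  simp

/-- `κ(L) ≤ ν` -/
theorem upper [FiniteDimensional ℂ V] (L : Set Γ)
    (hL : ∀ l ∈ L, D.A l = 1 ∧ ∀ y, D.h l y = y) (R : ℝ)
    (hR : ∀ x : V, ∃ l ∈ L, ‖D.v l - x‖ ≤ R) : ¬ IitakaGE C.LB (ν + 1) := by
  rintro ⟨m, hm, s, a, e, x, he, ha, h0, hli⟩
  replace ha : x ∈ C.dom a := ha
  set c := chartAt (Cm ν) a.2 with hc
  set z₀ := (C.σ a x).1 with hz₀
  set y₀ := C.q a x with hy₀
  have hcy : At c y₀ := C.at_q ha
  have hσ : C.σ a x = (z₀, y₀) := rfl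
  have hp : C.p (z₀, y₀) = x := by rw [← hσ]; exact C.p_σ' ha
  set S : Fin (ν + 1 + 1) → Cm ν → ℂ := fun j w => (s j).f a (C.p (z₀, c.symm w)) with hS
  have hcont : ContinuousAt (fun w => (z₀, c.symm w)) (c y₀) :=
    continuousAt_const.prodMk (c.continuousAt_symm hcy.mem_target)
  have hSan : ∀ j, ContDiffAt ℂ ω (S j) (c y₀) := by
    intro j
    have h1 : ContDiffAt ℂ ω (fun w => e (C.p (z₀, c.symm w))) (c y₀) :=
      C.holY z₀ y₀ c e hcy (by rw [hp]; exact he)
    have h2 : ContDiffAt ℂ ω (fun u => (s j).f a (e.symm u))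
        ((fun w => e (C.p (z₀, c.symm w))) (c y₀)) := by
      simp only [hcy.left_inv, hp]
      exact (s j).holo a e x he ha
    have h3 : ContDiffAt ℂ ω (fun w => (s j).f a (e.symm (e (C.p (z₀, c.symm w))))) (c y₀) :=
      ContDiffAt.comp (c y₀) (g := fun u => (s j).f a (e.symm u)) h2 h1
    refine h3.congr_of_eventuallyEq ?_
    have h4 : ContinuousAt (fun w => C.p (z₀, c.symm w)) (c y₀) :=
      ContinuousAt.comp (g := C.p) C.lh.continuous.continuousAt hcont
    have h5 : ∀ᶠ w in 𝓝 (c y₀), C.p (z₀, c.symm w) ∈ e.source := by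
      refine h4.eventually (e.open_source.mem_nhds ?_)
      simp only [hcy.left_inv, hp]
      exact he.2
    filter_upwards [h5] with w hw
    rw [e.left_inv hw]
  -- the sections only depend on `y`
  have hrel : ∀ j, ∀ᶠ u in 𝓝 (e x), (s j).f a (e.symm u) = S j (c (C.q a (e.symm u))) := by
    intro j
    have h1 : ∀ᶠ x' in 𝓝 x, (z₀, C.q a x') ∈ (C.loc a).source := by
      have h2 : ContinuousAt (fun x' => (z₀, C.q a x')) x :=
        continuousAt_const.prodMk (continuous_snd.continuousAt.comp (C.continuousAt_σ ha))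
      exact h2.eventually ((C.loc a).open_source.mem_nhds (by
        show (z₀, C.q a x) ∈ (C.loc a).source
        exact C.σ_mem ha))
    filter_upwards [nhds_symm' h1 he, dom_nhds ha he] with u hu hu'
    have hq := C.q_mem hu'
    set x' := e.symm u with hx'
    have e1 := f_eq_T (s j) (a := a) (b := C.σ a x') (C.σ_mem hu') hq
    rw [C.p_σ' hu'] at e1
    have e2 := f_eq_T (s j) (a := a) (b := (z₀, C.q a x')) hu hq
    show (s j).f a x' = (s j).f a (C.p (z₀, c.symm (c (C.q a x'))))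
    rw [c.left_inv hq, e1, e2]
    show _ * T (s j) (C.q a x') (C.σ a x').1 = _ * T (s j) (C.q a x') z₀
    rw [T_const (s j) (C.q a x') L hL R hR (C.σ a x').1 z₀]
    rfl
  have hS0 : S 0 (c y₀) ≠ 0 := by
    simp only [hS, hcy.left_inv, hp]
    exact h0
  set A := fderiv ℂ (fun u => c (C.q a (e.symm u))) (e x) with hA
  have h1 : ∀ j : Fin (ν + 1), fderiv ℂ (fun u => ((s j.succ).f a (e.symm u)) /
      ((s 0).f a (e.symm u))) (e x) = (fderiv ℂ (fun w => S j.succ w / S 0 w) (c y₀)).comp A := by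
    intro j
    have e1 : (fun u => ((s j.succ).f a (e.symm u)) / ((s 0).f a (e.symm u))) =ᶠ[𝓝 (e x)]
        (fun w => S j.succ w / S 0 w) ∘ (fun u => c (C.q a (e.symm u))) := by
      filter_upwards [hrel j.succ, hrel 0] with u h1 h2
      rw [h1, h2]
      rfl
    have e2 : DifferentiableAt ℂ (fun w => S j.succ w / S 0 w)
        ((fun u => c (C.q a (e.symm u))) (e x)) := by
      simp only [he.left_inv]
      exact ((hSan j.succ).div (hSan 0) hS0).differentiableAt (by simp)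
    have e3 := fderiv_comp (e x) (f := fun u => c (C.q a (e.symm u)))
      (g := fun w => S j.succ w / S 0 w) e2 ((holo_q ha he).differentiableAt (by simp))
    rw [e1.fderiv_eq, e3]
    simp only [he.left_inv]
    rfl
  rw [funext h1] at hli
  let TT : (Cm ν →L[ℂ] ℂ) →ₗ[ℂ] (Cm n →L[ℂ] ℂ) :=
    { toFun := fun φ => φ.comp A
      map_add' := fun φ ψ => by ext; rfl
      map_smul' := fun r φ => by ext; rfl }
  have h2 : LinearIndependent ℂ fun j : Fin (ν + 1) =>
      fderiv ℂ (fun w => S j.succ w / S 0 w) (c y₀) := LinearIndependent.of_comp TT hli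
  have h3 := h2.fintype_card_le_finrank
  rw [finrank_dual, Fintype.card_fin] at h3
  omega

end Cov

end Vale.Agent.P284.H248
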