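import Vale.Agent.P284.H248.Lower
import Vale.Agent.P284.H248.Upper
import Vale.Agent.P285.H766.Split
import Vale.Agent.P285.H766.InvJet
import Mathlib.Topology.Homotopy.Lifting
import Mathlib.Topology.Covering.Quotient

/-!
# P284: if `X` is special then `ν = 0` and `π₁(X)` is virtually abelian
-/

open scoped Manifold ContDiff Topology
open Filter Set
open Vale.Agent.P272.K Vale.Agent.P272.KOD Vale.Agent.P285.H281 Vale.Agent.P285.H766
open Vale.Agent.P272.K.QN (jm)

noncomputable section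

namespace Vale.Agent.P284.H248

variable {V : Type} [NormedAddCommGroup V] [InnerProductSpace ℂ V] {ν : ℕ} {Y : Type}
  [TopologicalSpace Y] [ChartedSpace (Cm ν) Y]
  {Γ : Type} [Group Γ] {D : Dat V ν Y Γ}
  {n : ℕ} {X : Type} [TopologicalSpace X] [ChartedSpace (Cm n) X]

/-- `κ(L) = ν` for the line bundle `L ⊂ Ω^ν` -/
theorem Cov.iitaka_eq (C : Cov D n X) [FiniteDimensional ℂ V] [T2Space Y] [ConnectedSpace Y]
    [IsManifold 𝓘(ℂ, Cm ν) ω Y]
    (hprop : ∀ K : Set Y, IsCompact K →
      {f : Y → Y | (∃ γ, f = D.h γ) ∧ (f '' K ∩ K).Nonempty}.Finite) :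
    IitakaEQ C.LB ν := by
  obtain ⟨L, Γ₂, Γ₃, hfi, hL2, h32, -, hA2, hL, -, hdec, hfree, hpd, hcc, -, R, hR⟩ :=
    exists_split D hprop
  let a : FreeAct ν Y D.η Γ₃ :=
    { h := fun g => D.h g
      one := D.h_one
      mul := fun γ δ y => D.h_mul γ δ y
      iso := fun γ => D.iso γ
      free := fun γ y h => Subtype.ext (hfree γ γ.2 y h)
      proper := fun K hK => by
        have h1 := hpd K hK
        refine Set.Finite.of_finite_image (f := Subtype.val) (h1.subset ?_)
          (Subtype.val_injective.injOn)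
        rintro _ ⟨g, hg, rfl⟩
        exact ⟨g.2, hg⟩
      cocompact := by
        obtain ⟨K, hK, hK'⟩ := hcc
        refine ⟨K, hK, fun y => ?_⟩
        obtain ⟨g, hg, hgK⟩ := hK' y
        exact ⟨⟨g, hg⟩, hgK⟩ }
  obtain ⟨m, hm, hjet⟩ := exists_inv_jet D.kahler.toIsHermitian D.ke a
  obtain ⟨y₀⟩ := (inferInstance : Nonempty Y)
  obtain ⟨s, hs, hj⟩ := hjet y₀
  have hK : ∀ i, ∀ κ ∈ Γ₂.normalCore, PInv (D.h κ) (s i) := by
    intro i κ hκ
    obtain ⟨l, hl, g, hg, rfl⟩ := hdec κ (Γ₂.normalCore_le hκ)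
    have h1 : D.h (l * g) = D.h g := by
      funext y
      rw [D.h_mul]
      exact ((hL l).1 hl).2 _
    rw [h1]
    exact hs i ⟨g, hg⟩
  refine ⟨C.lower hm s hK y₀ hj, ?_⟩
  exact Cov.upper (C := C) L (fun l hl => (hL l).1 hl) R hR

theorem Cov.le_dim (C : Cov D n X) [Nonempty Y] : ν ≤ n := by
  obtain ⟨y⟩ := (inferInstance : Nonempty Y)
  have ha := C.p_mem_dom ((0 : V), y)
  have he : At (chartAt (Cm n) (C.p (0, y))) (C.p ((0 : V), y)) :=
    ⟨chart_mem_atlas _ _, mem_chart_source _ _⟩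
  obtain ⟨B, hB⟩ := Cov.exists_right_inv ha he
  have hinj : Function.Injective B := by
    intro u v huv
    have h1 := congrArg (fun φ : Cm ν →L[ℂ] Cm ν => φ u) hB
    have h2 := congrArg (fun φ : Cm ν →L[ℂ] Cm ν => φ v) hB
    simp only [ContinuousLinearMap.comp_apply, ContinuousLinearMap.id_apply] at h1 h2
    rw [← h1, ← h2, huv]
  have h3 := LinearMap.finrank_le_finrank_of_injective (f := B.toLinearMap) hinj
  simpa using h3

/-- If `X` is special then `ν = 0`. -/
theorem Cov.dim_zero (C : Cov D n X) [FiniteDimensional ℂ V] [T2Space Y] [ConnectedSpace Y]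
    [IsManifold 𝓘(ℂ, Cm ν) ω Y] [IsManifold 𝓘(ℂ, Cm n) ω X]
    (hprop : ∀ K : Set Y, IsCompact K →
      {f : Y → Y | (∃ γ, f = D.h γ) ∧ (f '' K ∩ K).Nonempty}.Finite)
    (hsp : Special n X) : ν = 0 := by
  by_contra hν
  obtain ⟨y₀⟩ := (inferInstance : Nonempty Y)
  exact hsp ν (Nat.one_le_iff_ne_zero.2 hν) C.le_dim C.LB (C.iitaka_eq hprop) C.mor
    (Cov.mor_nonzero ((0 : V), y₀))

/-- If `ν = 0` then `Γ` is virtually abelian. -/
theorem virtuallyAbelian_of_dim_zero (D : Dat V ν Y Γ) (hν : ν = 0) [FiniteDimensional ℂ V]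
    [ConnectedSpace Y]
    (hprop : ∀ K : Set Y, IsCompact K →
      {f : Y → Y | (∃ γ, f = D.h γ) ∧ (f '' K ∩ K).Nonempty}.Finite) : VirtuallyAbelian Γ := by
  subst hν
  have hdisc : DiscreteTopology Y := by
    rw [discreteTopology_iff_isOpen_singleton]
    intro y
    have h1 : (chartAt (Cm 0) y).source = {y} := by
      ext y'
      constructor
      · intro hy'
        exact (chartAt (Cm 0) y).injOn hy' (mem_chart_source _ _) (Subsingleton.elim _ _)
      · rintro rfl
        exact mem_chart_source _ _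
    rw [← h1]
    exact (chartAt (Cm 0) y).open_source
  have hsub : Subsingleton Y := by
    refine ⟨fun a b => ?_⟩
    have h1 : IsClopen ({a} : Set Y) := ⟨isClosed_discrete _, isOpen_discrete _⟩
    have h2 := h1.eq_univ ⟨a, rfl⟩
    have h3 : b ∈ ({a} : Set Y) := by rw [h2]; trivial
    exact h3.symm
  obtain ⟨L, Γ₂, Γ₃, hfi, hL2, h32, -, hA2, hL, hcomm, hdec, hfree, -⟩ := exists_split D hprop
  obtain ⟨y₀⟩ := (inferInstance : Nonempty Y)
  refine ⟨Γ₂, hfi, fun a ha b hb => ?_⟩
  obtain ⟨l, hl, g, hg, rfl⟩ := hdec a ha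
  have hg1 : g = 1 := hfree g hg y₀ (Subsingleton.elim _ _)
  rw [hg1, mul_one]
  exact hcomm l hl b hb

theorem VirtuallyAbelian.of_mulOpposite {G H : Type*} [Group G] [Group H] (e : G ≃* Hᵐᵒᵖ)
    (h : VirtuallyAbelian H) : VirtuallyAbelian G := by
  obtain ⟨K, hK, hc⟩ := h
  let f : G →* H :=
    { toFun := fun g => (MulOpposite.unop (e g))⁻¹
      map_one' := by simp
      map_mul' := fun a b => by simp }
  have hf : Function.Injective f := by
    intro a b hab
    have : MulOpposite.unop (e a) = MulOpposite.unop (e b) := inv_injective hab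
    exact e.injective (MulOpposite.unop_injective this)
  have hfi : (K.comap f).FiniteIndex := ⟨by
    rw [Subgroup.index_comap]
    exact (inferInstance : (K.subgroupOf f.range).FiniteIndex).index_ne_zero⟩
  refine ⟨K.comap f, hfi, fun a ha b hb => hf ?_⟩
  rw [map_mul, map_mul]
  exact hc _ ha _ hb

theorem Cov.fundamentalGroup (C : Cov D n X) [SimplyConnectedSpace (V × Y)]
    (h : VirtuallyAbelian Γ) (x : X) : VirtuallyAbelian (FundamentalGroup X x) := by
  let _ : MulAction Γ (V × Y) :=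
    { smul := act D
      one_smul := act_one D
      mul_smul := act_mul D }
  have hq : IsQuotientCoveringMap C.p Γ :=
    { toIsQuotientMap := C.lh.isOpenMap.isQuotientMap C.lh.continuous C.surj
      continuous_const_smul := act_cont D
      apply_eq_iff_mem_orbit := by
        intro a b
        rw [eq_comm, C.fib]
        rfl
      disjoint := by
        intro a
        refine ⟨(C.loc a).source, (C.loc a).open_source.mem_nhds (C.mem_loc a), ?_⟩
        rintro γ ⟨b, ⟨b', hb', rfl⟩, hb⟩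
        have h1 : C.loc a (act D γ b') = C.loc a b' := by
          rw [C.loc_eq]
          exact C.p_act γ b'
        have h2 : act D γ b' = b' := (C.loc a).injOn hb hb' h1
        exact act_free D γ b' h2 }
  obtain ⟨a, rfl⟩ := C.surj x
  exact VirtuallyAbelian.of_mulOpposite (hq.fundamentalGroupEquiv (x := C.p a) ⟨a, rfl⟩) h

end Vale.Agent.P284.H248
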