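import Vale.Agent.P284.H248.Main
import Vale.Agent.P285.H766.Semi
import Mathlib.Geometry.Manifold.LocalDiffeomorph

/-!
# P284: the structure `Cov` from the structure `Geo` of P285
-/

open scoped Manifold ContDiff Topology
open Filter Set
open Vale.Agent.P272.K Vale.Agent.P272.KOD Vale.Agent.P285.H281 Vale.Agent.P285.H766

noncomputable section

namespace Vale.Agent.P284.H248

variable {n k ν : ℕ} 
  {V : Type} [NormedAddCommGroup V] [InnerProductSpace ℂ V] {b : Module.Basis (Fin k) ℂ V}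
  {Y : Type} [TopologicalSpace Y] [ChartedSpace (Cm ν) Y]
  {Γ : Type} [Group Γ] {D : Dat V ν Y Γ}
  {M X : Type} [TopologicalSpace M] [TopologicalSpace X] [ChartedSpace (Cm n) M]
  [ChartedSpace (Cm n) X]

variable (S : Geo (n := n) b D (M := M) (X := X)) (Φ : M ≃ₜ V × Y)
  (hΦ : ∀ m, Φ m = (b.equivFun.symm (S.Z m), S.q m))

include hΦ in
theorem geo_equiv (γ : Γ) (m : M) : Φ (S.act γ m) = act D γ (Φ m) := by
  rw [hΦ, hΦ, S.Z_act, S.q_act]
  rfl

variable [IsManifold 𝓘(ℂ, Cm n) ω M] [IsManifold 𝓘(ℂ, Cm n) ω X] [IsManifold 𝓘(ℂ, Cm ν) ω Y]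

/-- a continuous local section of a local biholomorphism is holomorphic -/
theorem section_hol {π : M → X} (hπ : IsLocalDiffeomorph 𝓘(ℂ, Cm n) 𝓘(ℂ, Cm n) ω π) {τ : X → M}
    {x : X} (hτ : ContinuousAt τ x) (hτ' : ∀ᶠ x' in 𝓝 x, π (τ x') = x') :
    ContMDiffAt 𝓘(ℂ, Cm n) 𝓘(ℂ, Cm n) ω τ x := by
  obtain ⟨Ψ, hΨ, hΨ'⟩ := hπ (τ x)
  have h1 : ∀ᶠ x' in 𝓝 x, τ x' ∈ Ψ.source := hτ.eventually (Ψ.open_source.mem_nhds hΨ)
  have h2 : τ =ᶠ[𝓝 x] Ψ.symm := by
    filter_upwards [h1, hτ'] with x' hx' hx''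
    have h3 : Ψ (τ x') = x' := by rw [← hΨ' hx']; exact hx''
    have h4 : Ψ.symm (Ψ (τ x')) = τ x' := Ψ.left_inv' hx'
    rw [h3] at h4
    exact h4.symm
  have hx : x ∈ Ψ.target := by
    have h3 : Ψ (τ x) = x := by rw [← hΨ' hΨ]; exact hτ'.self_of_nhds
    have h4 : Ψ (τ x) ∈ Ψ.target := Ψ.map_source' hΨ
    rwa [h3] at h4
  exact (Ψ.contMDiffOn_invFun.contMDiffAt (Ψ.open_target.mem_nhds hx)).congr_of_eventuallyEq h2

/-- the covering `V × Y → X` -/
def covOfGeo
    (sliceV : ∀ y, ContMDiff 𝓘(ℂ, V) 𝓘(ℂ, Cm n) ω fun z : V => Φ.symm (z, y))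
    (sliceY : ∀ z, ContMDiff 𝓘(ℂ, Cm ν) 𝓘(ℂ, Cm n) ω fun y : Y => Φ.symm (z, y)) :
    Cov D n X where
  p := fun a => S.π (Φ.symm a)
  surj := S.surj.comp Φ.symm.surjective
  lh := S.loc.isLocalHomeomorph.comp Φ.symm.isLocalHomeomorph
  fib a c := by
    rw [S.fib]
    refine exists_congr fun γ => ?_
    constructor
    · intro h
      have h1 := congrArg Φ h
      rwa [geo_equiv S Φ hΦ, Φ.apply_symm_apply, Φ.apply_symm_apply] at h1
    · intro h
      refine Φ.injective ?_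
      rw [geo_equiv S Φ hΦ, Φ.apply_symm_apply, Φ.apply_symm_apply, h]
  holV y z e he := by
    rw [← contMDiffAt_iff_contDiffAt]
    have h1 : ContMDiffAt 𝓘(ℂ, V) 𝓘(ℂ, Cm n) ω (fun z' => S.π (Φ.symm (z', y))) z :=
      (S.loc.contMDiff _).comp z (sliceV y z)
    exact ContMDiffAt.comp z (g := e) (chart_contMDiffAt he) h1
  holY z y c e hc he := by
    rw [← contMDiffAt_iff_contDiffAt]
    have h1 : ContMDiffAt 𝓘(ℂ, Cm ν) 𝓘(ℂ, Cm n) ω (fun y' => S.π (Φ.symm (z, y')))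
        (c.symm (c y)) :=
      (S.loc.contMDiff _).comp _ (sliceY z _)
    have h2 : ContMDiffAt 𝓘(ℂ, Cm ν) 𝓘(ℂ, Cm n) ω (fun w => S.π (Φ.symm (z, c.symm w))) (c y) :=
      ContMDiffAt.comp (c y) (g := fun y' => S.π (Φ.symm (z, y'))) h1
        (chart_symm_contMDiffAt hc.1 hc.mem_target)
    refine ContMDiffAt.comp (c y) (g := e) ?_ h2
    rw [hc.left_inv]
    exact chart_contMDiffAt he
  holQ f a hf ha e c he hc := by
    have hfa : f a = S.π (Φ.symm a) := congrFun hf a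
    have hx : S.π (Φ.symm a) ∈ f.target := by rw [← hfa]; exact f.map_source ha
    have hinv : f.symm (S.π (Φ.symm a)) = a := by rw [← hfa]; exact f.left_inv ha
    have h1 : ContMDiffAt 𝓘(ℂ, Cm n) 𝓘(ℂ, Cm n) ω (fun x => Φ.symm (f.symm x))
        (S.π (Φ.symm a)) := by
      refine section_hol S.loc ?_ ?_
      · exact Φ.symm.continuous.continuousAt.comp (f.symm.continuousAt hx)
      · filter_upwards [f.open_target.mem_nhds hx] with x' hx'
        have h2 := congrFun hf (f.symm x')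
        rw [f.right_inv hx'] at h2
        exact h2.symm
    have h2 : ∀ x, (f.symm x).2 = S.q (Φ.symm (f.symm x)) := by
      intro x
      have h3 := hΦ (Φ.symm (f.symm x))
      rw [Φ.apply_symm_apply] at h3
      exact congrArg Prod.snd h3
    rw [← contMDiffAt_iff_contDiffAt]
    have h3 : (fun u => c (f.symm (e.symm u)).2) =
        fun u => c (S.q (Φ.symm (f.symm (e.symm u)))) := by
      funext u
      rw [h2]
    rw [h3]
    have h4 : ContMDiffAt 𝓘(ℂ, Cm n) 𝓘(ℂ, Cm n) ω (fun u => Φ.symm (f.symm (e.symm u)))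
        (e (S.π (Φ.symm a))) := by
      refine ContMDiffAt.comp (e (S.π (Φ.symm a))) (g := fun x => Φ.symm (f.symm x)) ?_
        (chart_symm_contMDiffAt he.1 he.mem_target)
      rw [he.left_inv]
      exact h1
    have h5 : ContMDiffAt 𝓘(ℂ, Cm n) 𝓘(ℂ, Cm ν) ω (fun u => S.q (Φ.symm (f.symm (e.symm u))))
        (e (S.π (Φ.symm a))) := (S.q_hol _).comp _ h4
    refine ContMDiffAt.comp (e (S.π (Φ.symm a))) (g := c) ?_ h5
    rw [he.left_inv, ← h2, hinv]
    exact chart_contMDiffAt hc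
  holZ f a hf ha e he := by
    have hfa : f a = S.π (Φ.symm a) := congrFun hf a
    have hx : S.π (Φ.symm a) ∈ f.target := by rw [← hfa]; exact f.map_source ha
    have h1 : ContMDiffAt 𝓘(ℂ, Cm n) 𝓘(ℂ, Cm n) ω (fun x => Φ.symm (f.symm x))
        (S.π (Φ.symm a)) := by
      refine section_hol S.loc ?_ ?_
      · exact Φ.symm.continuous.continuousAt.comp (f.symm.continuousAt hx)
      · filter_upwards [f.open_target.mem_nhds hx] with x' hx'
        have h2 := congrFun hf (f.symm x')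
        rw [f.right_inv hx'] at h2
        exact h2.symm
    have h2 : ∀ x, (f.symm x).1 = b.equivFun.symm (S.Z (Φ.symm (f.symm x))) := by
      intro x
      have h3 := hΦ (Φ.symm (f.symm x))
      rw [Φ.apply_symm_apply] at h3
      exact congrArg Prod.fst h3
    rw [← contMDiffAt_iff_contDiffAt]
    have h3 : (fun u => (f.symm (e.symm u)).1) =
        fun u => b.equivFun.symm (S.Z (Φ.symm (f.symm (e.symm u)))) := by
      funext u
      rw [h2]
    rw [h3]
    have h4 : ContMDiffAt 𝓘(ℂ, Cm n) 𝓘(ℂ, Cm n) ω (fun u => Φ.symm (f.symm (e.symm u)))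
        (e (S.π (Φ.symm a))) := by
      refine ContMDiffAt.comp (e (S.π (Φ.symm a))) (g := fun x => Φ.symm (f.symm x)) ?_
        (chart_symm_contMDiffAt he.1 he.mem_target)
      rw [he.left_inv]
      exact h1
    have h5 : ContMDiffAt 𝓘(ℂ, Cm n) 𝓘(ℂ, Cm k) ω (fun u => S.Z (Φ.symm (f.symm (e.symm u))))
        (e (S.π (Φ.symm a))) := (S.Z_hol _).comp _ h4
    have h6 : ContDiff ℂ ω (fun y : Cm k => b.equivFun.symm y) :=
      (LinearMap.toContinuousLinearMap b.equivFun.symm.toLinearMap).contDiff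
    exact ContMDiffAt.comp (e (S.π (Φ.symm a))) (g := fun y : Cm k => b.equivFun.symm y)
      h6.contDiffAt.contMDiffAt h5

end Vale.Agent.P284.H248
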