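import Vale.Agent.P284.H248.LB
import Vale.Agent.P285.H766.PullS

/-!
# P284: sections of the powers of `L`, the morphism `L → Ω^ν` is not zero
-/

open scoped Manifold ContDiff Topology
open Filter Set
open Vale.Agent.P272.K Vale.Agent.P272.KOD Vale.Agent.P285.H281 Vale.Agent.P285.H766
open Vale.Agent.P272.K.QN (jm)

noncomputable section

namespace Vale.Agent.P284.H248

variable {V : Type} [NormedAddCommGroup V] [InnerProductSpace ℂ V] {ν : ℕ} {Y : Type}
  [TopologicalSpace Y] [ChartedSpace (Cm ν) Y] {Γ : Type} [Group Γ] {D : Dat V ν Y Γ}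
  {n : ℕ} {X : Type} [TopologicalSpace X] [ChartedSpace (Cm n) X] (C : Cov D n X)

namespace Cov

variable {C} {a b : V × Y} {x : X} {γ : Γ} {e : Chart n X}

/-- a holomorphic right inverse of the submersion `X → Y` -/
theorem q_section (ha : x ∈ C.dom a) (he : At e x) :
    ∃ s : Cm ν → Cm n, s (chartAt (Cm ν) a.2 (C.q a x)) = e x ∧
      ContDiffAt ℂ ω s (chartAt (Cm ν) a.2 (C.q a x)) ∧
      ∀ᶠ w in 𝓝 (chartAt (Cm ν) a.2 (C.q a x)),
        chartAt (Cm ν) a.2 (C.q a (e.symm (s w))) = w := by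
  set c := chartAt (Cm ν) a.2 with hc
  set z := (C.σ a x).1 with hz
  set y := C.q a x with hy
  have hcy : At c y := C.at_q ha
  have hzy : (z, y) = C.σ a x := rfl
  have hp : C.p (z, y) = x := by rw [hzy]; exact C.p_σ' ha
  refine ⟨fun w => e (C.p (z, c.symm w)), ?_, ?_, ?_⟩
  · simp only [hcy.left_inv, hp]
  · exact C.holY z y c e hcy (by rw [hp]; exact he)
  · have h1 : ContinuousAt (fun w => (z, c.symm w)) (c y) :=
      continuousAt_const.prodMk (c.continuousAt_symm hcy.mem_target)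
    have h2 : ∀ᶠ w in 𝓝 (c y), (z, c.symm w) ∈ (C.loc a).source := by
      refine h1.eventually ((C.loc a).open_source.mem_nhds ?_)
      simp only [hcy.left_inv, hzy]
      exact C.σ_mem ha
    have h3 : ∀ᶠ w in 𝓝 (c y), C.p (z, c.symm w) ∈ e.source := by
      have h4 : ContinuousAt (fun w => C.p (z, c.symm w)) (c y) :=
        ContinuousAt.comp (g := C.p) C.lh.continuous.continuousAt h1
      refine h4.eventually (e.open_source.mem_nhds ?_)
      simp only [hcy.left_inv, hp]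
      exact he.2
    filter_upwards [h2, h3, hcy.nhds_target] with w hw hw' hwt
    rw [e.left_inv hw', q, C.σ_p hw]
    exact c.right_inv hwt

/-- the differential of the submersion `X → Y` is surjective -/
theorem exists_right_inv (ha : x ∈ C.dom a) (he : At e x) : ∃ B : Cm ν →L[ℂ] Cm n,
    (fderiv ℂ (fun u => chartAt (Cm ν) a.2 (C.q a (e.symm u))) (e x)).comp B =
      ContinuousLinearMap.id ℂ (Cm ν) := by
  obtain ⟨s, h1, h2, h3⟩ := q_section ha he
  refine ⟨fderiv ℂ s (chartAt (Cm ν) a.2 (C.q a x)), ?_⟩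
  have h4 : DifferentiableAt ℂ (fun u => chartAt (Cm ν) a.2 (C.q a (e.symm u)))
      (s (chartAt (Cm ν) a.2 (C.q a x))) := by
    rw [h1]; exact (holo_q ha he).differentiableAt (by simp)
  have h5 := fderiv_comp (chartAt (Cm ν) a.2 (C.q a x)) (f := s)
    (g := fun u => chartAt (Cm ν) a.2 (C.q a (e.symm u))) h4 (h2.differentiableAt (by simp))
  rw [h1] at h5
  rw [← h5]
  have h6 : ((fun u => chartAt (Cm ν) a.2 (C.q a (e.symm u))) ∘ s) =ᶠ[𝓝
    (chartAt (Cm ν) a.2 (C.q a x))] id := h3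
  rw [h6.fderiv_eq, fderiv_id]

theorem mor_nonzero [IsManifold 𝓘(ℂ, Cm ν) ω Y] [IsManifold 𝓘(ℂ, Cm n) ω X] (a : V × Y) :
    (C.mor).Nonzero := by
  have ha := C.p_mem_dom a
  have he : At (chartAt (Cm n) (C.p a)) (C.p a) := ⟨chart_mem_atlas _ _, mem_chart_source _ _⟩
  refine ⟨a, chartAt (Cm n) (C.p a), C.p a, he, ha, fun h0 => ?_⟩
  obtain ⟨B, hB⟩ := exists_right_inv ha he
  have h1 := congrArg (fun φ : (Cm n) [⋀^Fin ν]→ₗ[ℂ] ℂ =>
    φ (fun i => B (Pi.single i 1))) h0
  simp only [mor, AlternatingMap.compLinearMap_apply, AlternatingMap.zero_apply] at h1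
  have h2 : ∀ i : Fin ν, (fderiv ℂ (fun u => chartAt (Cm ν) a.2 (C.q a
      ((chartAt (Cm n) (C.p a)).symm u))) (chartAt (Cm n) (C.p a) (C.p a))).toLinearMap
      (B (Pi.single i 1)) = Pi.single i 1 := fun i =>
    congrArg (fun φ : Cm ν →L[ℂ] Cm ν => φ (Pi.single i 1)) hB
  simp only [h2] at h1
  have h3 : vol ν (fun i => Pi.single i 1) = 1 := by
    have h4 : (Matrix.of fun i j => (Pi.single i (1 : ℂ) : Cm ν) j) =
        (1 : Matrix (Fin ν) (Fin ν) ℂ) := by
      ext i j
      simp [Matrix.one_apply, Pi.single_apply, eq_comm]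
    show Matrix.det (Matrix.of fun i j => (Pi.single i (1 : ℂ) : Cm ν) j) = 1
    rw [h4, Matrix.det_one]
  rw [h3] at h1
  exact one_ne_zero h1

variable [IsManifold 𝓘(ℂ, Cm ν) ω Y]

variable (C) in
/-- sections of `L^m` from invariant `m`-canonical forms on `Y` -/
def sec {m : ℕ} (F : PSec ν m Y) (hF : ∀ γ, PInv (D.h γ) F) : Sec C.LB m where
  f a x := F.coeff (chartAt (Cm ν) a.2) (chartAt (Cm ν) a.2 (C.q a x))
  holo a e x he ha := by
    have h1 : ContDiffAt ℂ ω (F.coeff (chartAt (Cm ν) a.2))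
        ((fun u => chartAt (Cm ν) a.2 (C.q a (e.symm u))) (e x)) := by
      simp only [he.left_inv]
      exact (F.holo _ _ (C.at_q ha)).contDiffAt
    exact ContDiffAt.comp (e x) (g := F.coeff (chartAt (Cm ν) a.2)) h1 (holo_q ha he)
  change a b x ha hb := by
    obtain ⟨γ, h⟩ := C.exists_tr ha hb
    have h1 := hF γ (chartAt (Cm ν) a.2) (chartAt (Cm ν) b.2) (C.q a x) (C.at_q ha) (at_hq hb h)
    rw [h1, h_q h, mul_comm]
    congr 2
    exact (C.tr_eq h).symm

/-- `κ(L) ≥ k` from invariant forms on `Y` -/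
theorem iitaka_of_jet {k m : ℕ} (hm : 1 ≤ m) (F : Fin (k + 1) → PSec ν m Y)
    (hF : ∀ i γ, PInv (D.h γ) (F i)) (a : V × Y) (x : X) (ha : x ∈ C.dom a)
    (h0 : (F 0).coeff (chartAt (Cm ν) a.2) (chartAt (Cm ν) a.2 (C.q a x)) ≠ 0)
    (hli : LinearIndependent ℂ fun j : Fin k => fderiv ℂ (fun w =>
      (F j.succ).coeff (chartAt (Cm ν) a.2) w / (F 0).coeff (chartAt (Cm ν) a.2) w)
      (chartAt (Cm ν) a.2 (C.q a x))) :
    IitakaGE C.LB k := by
  set c := chartAt (Cm ν) a.2 with hc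
  have he : At (chartAt (Cm n) x) x := ⟨chart_mem_atlas _ _, mem_chart_source _ _⟩
  set e := chartAt (Cm n) x with hee
  refine ⟨m, hm, fun i => C.sec (F i) (hF i), a, e, x, he, ha, h0, ?_⟩
  obtain ⟨B, hB⟩ := exists_right_inv ha he
  set A := fderiv ℂ (fun u => c (C.q a (e.symm u))) (e x) with hA
  have h1 : ∀ j : Fin k, fderiv ℂ (fun u => ((C.sec (F j.succ) (hF j.succ)).f a (e.symm u)) /
      ((C.sec (F 0) (hF 0)).f a (e.symm u))) (e x) =
      (fderiv ℂ (fun w => (F j.succ).coeff c w / (F 0).coeff c w) (c (C.q a x))).comp A := by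
    intro j
    have h2 : DifferentiableAt ℂ (fun w => (F j.succ).coeff c w / (F 0).coeff c w)
        ((fun u => c (C.q a (e.symm u))) (e x)) := by
      simp only [he.left_inv]
      have g1 : ContDiffAt ℂ ω ((F j.succ).coeff c) (c (C.q a x)) :=
        ((F j.succ).holo _ _ (C.at_q ha)).contDiffAt
      have g2 : ContDiffAt ℂ ω ((F 0).coeff c) (c (C.q a x)) :=
        ((F 0).holo _ _ (C.at_q ha)).contDiffAt
      exact (g1.div g2 h0).differentiableAt (by simp)
    have h3 := fderiv_comp (e x) (f := fun u => c (C.q a (e.symm u)))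
      (g := fun w => (F j.succ).coeff c w / (F 0).coeff c w) h2
      ((holo_q ha he).differentiableAt (by simp))
    simp only [he.left_inv] at h3
    exact h3
  have h4 : LinearIndependent ℂ fun j : Fin k => (fderiv ℂ (fun w =>
      (F j.succ).coeff c w / (F 0).coeff c w) (c (C.q a x))).comp A := by
    let T : (Cm n →L[ℂ] ℂ) →ₗ[ℂ] (Cm ν →L[ℂ] ℂ) :=
      { toFun := fun φ => φ.comp B
        map_add' := fun φ ψ => by ext; rfl
        map_smul' := fun r φ => by ext; rfl }
    refine LinearIndependent.of_comp T ?_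
    have h5 : (T ∘ fun j : Fin k => (fderiv ℂ (fun w =>
      (F j.succ).coeff c w / (F 0).coeff c w) (c (C.q a x))).comp A) = fun j : Fin k =>
      fderiv ℂ (fun w => (F j.succ).coeff c w / (F 0).coeff c w) (c (C.q a x)) := by
      funext j
      show ((fderiv ℂ _ _).comp A).comp B = _
      rw [ContinuousLinearMap.comp_assoc, hB, ContinuousLinearMap.comp_id]
    rw [h5]
    exact hli
  have h6 : (fun j : Fin k => fderiv ℂ (fun u => ((C.sec (F j.succ) (hF j.succ)).f a (e.symm u)) /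
      ((C.sec (F 0) (hF 0)).f a (e.symm u))) (e x)) = fun j : Fin k => (fderiv ℂ (fun w =>
      (F j.succ).coeff c w / (F 0).coeff c w) (c (C.q a x))).comp A := funext h1
  rw [← h6] at h4
  exact h4

end Cov

end Vale.Agent.P284.H248
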